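import Vale.Agent.P148.Defs

/-!
# P148: the sigma-algebra of the positions of the points
-/

open MeasureTheory

namespace Vale.Agent.P148.R2.H771

open _root_.P148

/-- The sigma-algebra generated by the positions of the points, without the colours: it is generated
by the numbers of points in the bounded Borel sets of the plane. -/
@[reducible] def posSigma {Ω : Type*} (S : Ω → Set Pt) : MeasurableSpace Ω :=
  MeasurableSpace.generateFrom {s | ∃ A : Set ℂ, MeasurableSet A ∧ Bornology.IsBounded A ∧
    ∃ n : ℕ, s = {ω | (pts (S ω) ∩ A).ncard = n}}

end Vale.Agent.P148.R2.H771
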