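import Vale.Agent.P148.R2.F.Fin
import Vale.Agent.P148.R2.H729.Q4
import Vale.Agent.P148.R2.H771.Cond

/-!
# P148: the crossing probability conditional on the points

Annealed convergence together with the lower bound of the quenched crossing probabilities which
holds with high probability gives convergence in `L¹` of the conditional probability given the
positions of the points.
-/

open MeasureTheory Set Metric Topology Filter ProbabilityTheory
open scoped ENNReal NNReal

namespace Vale.Agent.P148.R2.H771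

open _root_.P148
open _root_.P148.H729 (avg recolSum flipOn flipOn_invol lintegral_avg measurable_avg num
  measurable_num finite_pts)
open Vale.Agent.P148.R2.F (whp eventually_whp qcross BVStmt SStmt LLNStmt XStmt)

universe u

theorem flipOn_injective (U : Set ℂ) : Function.Injective (flipOn U) :=
  Function.LeftInverse.injective (g := flipOn U) (flipOn_invol U)

/-- The number of points over a set does not depend on the colours. -/
theorem num_flip (U A : Set ℂ) (T : Set Pt) : num (A ×ˢ univ) (flipOn U '' T) = num (A ×ˢ univ) T := by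
  unfold num
  have h : flipOn U '' T ∩ A ×ˢ univ = flipOn U '' (T ∩ A ×ˢ univ) := by
    ext q
    constructor
    · rintro ⟨⟨r, hr, rfl⟩, hq⟩
      exact ⟨r, ⟨hr, hq.1, mem_univ _⟩, rfl⟩
    · rintro ⟨r, ⟨hr, hr'⟩, rfl⟩
      exact ⟨⟨r, hr, rfl⟩, hr'.1, mem_univ _⟩
  rw [h, (flipOn_injective U).encard_image]

theorem measurable_indF {X : Type*} {mX : MeasurableSpace X} {s : Set X} (hs : MeasurableSet s)
    {F : X → ℝ≥0∞} (hF : Measurable F) : Measurable (s.indicator F) := hF.indicator hs

section prob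

variable {Ω : Type u} [mΩ : MeasurableSpace Ω] {P : Measure Ω} [IsProbabilityMeasure P]
  {S : Ω → Set Pt} {lam : ℝ≥0}

omit [IsProbabilityMeasure P] in
theorem pts_ncard (h : IsColouredPoisson P S lam) {A : Set ℂ} (hA : Bornology.IsBounded A) (n : ℕ)
    (ω : Ω) : (pts (S ω) ∩ A).ncard = n ↔ num (A ×ˢ univ) (S ω) = n := by
  have h1 : pts (S ω) ∩ A = Prod.fst '' (S ω ∩ A ×ˢ univ) := by
    ext z
    constructor
    · rintro ⟨⟨q, hq, rfl⟩, hz⟩
      exact ⟨q, ⟨hq, hz, mem_univ _⟩, rfl⟩
    · rintro ⟨q, ⟨hq, hq'⟩, rfl⟩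
      exact ⟨⟨q, hq, rfl⟩, hq'.1⟩
  have hinj : InjOn Prod.fst (S ω ∩ A ×ˢ univ) := by
    rintro ⟨z, c⟩ hz ⟨w, c'⟩ hw hzw
    have hzw' : z = w := hzw
    subst hzw'
    have := h.oneColour ω z
    cases c <;> cases c'
    · rfl
    · exact absurd ⟨hw.1, hz.1⟩ this
    · exact absurd ⟨hz.1, hw.1⟩ this
    · rfl
  have hfin : (pts (S ω) ∩ A).Finite := finite_pts h hA ω
  have h2 : (S ω ∩ A ×ˢ univ).encard = (pts (S ω) ∩ A).encard := by
    rw [h1, hinj.encard_image]
  unfold num
  rw [h2, ← hfin.cast_ncard_eq]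
  constructor
  · intro hn
    rw [hn]
    rfl
  · intro hn
    have : (((pts (S ω) ∩ A).ncard : ℕ) : ℝ≥0∞) = (n : ℝ≥0∞) := hn
    exact_mod_cast this

omit [IsProbabilityMeasure P] in
/-- Events which are measurable for the positions come from events of the configuration which do
not change when points are recoloured. -/
theorem posSigma_rep (h : IsColouredPoisson P S lam) (s : Set Ω) (hs : MeasurableSet[posSigma S] s) :
    ∃ E : Set (Set Pt), MeasurableSet[voidSigma] E ∧ (∀ U T, flipOn U '' T ∈ E ↔ T ∈ E) ∧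
      s = S ⁻¹' E := by
  refine MeasurableSpace.generateFrom_induction _ (fun s _ => ∃ E : Set (Set Pt),
    MeasurableSet[voidSigma] E ∧ (∀ U T, flipOn U '' T ∈ E ↔ T ∈ E) ∧ s = S ⁻¹' E)
    ?_ ?_ ?_ ?_ s hs
  · rintro t ⟨A, hA, hAb, n, rfl⟩ -
    refine ⟨{T | num (A ×ˢ univ) T = n}, ?_, ?_, ?_⟩
    · have hb : Bdd (A ×ˢ (univ : Set Bool)) := by
        obtain ⟨r, hr⟩ := hAb.subset_ball (0 : ℂ)
        exact ⟨r, prod_mono hr subset_rfl⟩
      exact measurable_num (hA.prod MeasurableSet.univ) hb (measurableSet_singleton (n : ℝ≥0∞))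
    · intro U T
      simp only [mem_ofPred_eq, num_flip]
    · ext ω
      exact pts_ncard h hAb n ω
  · exact ⟨∅, @MeasurableSet.empty _ voidSigma, fun _ _ => Iff.rfl, rfl⟩
  · rintro t - ⟨E, h1, h2, rfl⟩
    exact ⟨Eᶜ, @MeasurableSet.compl _ _ voidSigma h1, fun U T => not_congr (h2 U T), rfl⟩
  · intro t _ ht
    choose E h1 h2 h3 using ht
    refine ⟨⋃ n, E n, @MeasurableSet.iUnion _ _ voidSigma _ _ h1, fun U T => ?_, ?_⟩
    · simp only [mem_iUnion, h2]
    · rw [preimage_iUnion]
      exact iUnion_congr h3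

omit [IsProbabilityMeasure P] in
theorem posSigma_le (h : IsColouredPoisson P S lam) : posSigma S ≤ mΩ := by
  intro s hs
  obtain ⟨E, h1, -, rfl⟩ := posSigma_rep h s hs
  exact h.measurable_self h1

/-- Averaging over recolourings and restriction to an event of the positions. -/
theorem avg_indicator {B : Set ℂ} {E : Set (Set Pt)} (hE : ∀ U T, flipOn U '' T ∈ E ↔ T ∈ E)
    (F : Set Pt → ℝ≥0∞) (T : Set Pt) : avg B (E.indicator F) T = E.indicator (avg B F) T := by
  classical
  by_cases hT : T ∈ E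
  · rw [indicator_of_mem hT]
    unfold avg recolSum
    split_ifs with hf
    · congr 1
      refine Finset.sum_congr rfl fun W _ => ?_
      rw [indicator_of_mem ((hE _ _).2 hT)]
    · rfl
  · rw [indicator_of_notMem hT]
    unfold avg recolSum
    split_ifs with hf
    · rw [Finset.sum_eq_zero fun W _ => ?_, mul_zero]
      rw [indicator_of_notMem (fun hh => hT ((hE _ _).1 hh))]
    · rw [mul_zero]

theorem setLIntegral_avg (h : IsColouredPoisson P S lam) {B : Set ℂ} (hB : MeasurableSet B)
    (hb : Bornology.IsBounded B) {F : Set Pt → ℝ≥0∞} (hF : @Measurable _ _ voidSigma _ F)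
    {s : Set Ω} (hs : MeasurableSet[posSigma S] s) :
    ∫⁻ ω in s, avg B F (S ω) ∂P = ∫⁻ ω in s, F (S ω) ∂P := by
  have hs' := posSigma_le h s hs
  obtain ⟨E, h1, h2, rfl⟩ := posSigma_rep h s hs
  rw [← lintegral_indicator hs', ← lintegral_indicator hs']
  have e1 : ∀ G : Set Pt → ℝ≥0∞, ((S ⁻¹' E).indicator fun ω => G (S ω)) =
      fun ω => E.indicator G (S ω) := by
    intro G
    funext ω
    by_cases hω : S ω ∈ E
    · rw [indicator_of_mem (show ω ∈ S ⁻¹' E from hω), indicator_of_mem hω]
    · rw [indicator_of_notMem (show ω ∉ S ⁻¹' E from hω), indicator_of_notMem hω]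
  rw [e1, e1]
  simp only [← avg_indicator h2]
  exact lintegral_avg h hB hb (@measurable_indF (Set Pt) voidSigma _ h1 _ hF)

/-- The conditional probability given the positions is the conditional expectation of the quenched
crossing probability. -/
theorem condExp_qcross (h : IsColouredPoisson P S lam) (hlam : 0 < lam) (Q : Quad) (a a' : Fin 4)
    (R : ℝ) :
    P[{ω | Q.Cross a a' (blackRegion (S ω))}.indicator (fun _ => (1 : ℝ)) | posSigma S] =ᵐ[P]
      P[fun ω => qcross Q a a' R (S ω) | posSigma S] := by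
  classical
  have hm := posSigma_le h
  have hM : MeasCrossStmt.{0} := measCross
  have hI : InvStmt.{u} := inv
  have hg := ae_goodBd' kPoint2 colours2 hlam Q h
  have he : {ω | Q.Cross a a' (blackRegion (S ω))} =ᵐ[P] {ω | S ω ∈ crossSet Q a a'} := by
    filter_upwards [hg] with ω hω
    refine propext ?_
    change Q.Cross a a' (blackRegion (S ω)) ↔ S ω ∈ crossSet Q a a'
    rw [region (S ω) hω.toGood]
    exact Iff.rfl
  have hAm : MeasurableSet {ω | S ω ∈ crossSet Q a a'} := (prob_flip hI hM Q a a' h).1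
  have h1 : {ω | Q.Cross a a' (blackRegion (S ω))}.indicator (fun _ => (1 : ℝ)) =ᵐ[P]
      {ω | S ω ∈ crossSet Q a a'}.indicator (fun _ => (1 : ℝ)) := indicator_ae_eq_of_ae_eq_set he
  have hq : Measurable fun ω => qcross Q a a' R (S ω) := (F.mean_qcross h Q a a' R).1
  have hqi : Integrable (fun ω => qcross Q a a' R (S ω)) P :=
    Integrable.of_bound hq.aestronglyMeasurable 1 (Eventually.of_forall fun ω => by
      rw [Real.norm_eq_abs, abs_of_nonneg (F.qcross_nonneg _ _ _ _ _)]
      exact F.qcross_le_one _ _ _ _ _)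
  have hAi : Integrable ({ω | S ω ∈ crossSet Q a a'}.indicator (fun _ => (1 : ℝ))) P :=
    (integrable_const _).indicator hAm
  refine (condExp_congr_ae h1).trans ?_
  refine (ae_eq_condExp_of_forall_setIntegral_eq hm hqi
    (fun s _ _ => integrable_condExp.integrableOn) (fun s hs _ => ?_)
    stronglyMeasurable_condExp.aestronglyMeasurable)
  rw [setIntegral_condExp hm hAi hs]
  have hs' := hm s hs
  -- both sides as Lebesgue integrals
  have hmeas : @Measurable _ _ voidSigma _ ((crossSet Q a a').indicator (1 : Set Pt → ℝ≥0∞)) :=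
    @F.measurable_ind (Set Pt) voidSigma _ (measurable_crossSet hM Q a a')
  have key := setLIntegral_avg h measurableSet_ball isBounded_ball (B := ball 0 R) hmeas hs
  have hav := measurable_avg h measurableSet_ball isBounded_ball (B := ball 0 R) hmeas
  unfold qcross
  rw [integral_toReal hav.aemeasurable.restrict, key]
  · have e : (fun ω => (crossSet Q a a').indicator (1 : Set Pt → ℝ≥0∞) (S ω)) =
        {ω | S ω ∈ crossSet Q a a'}.indicator 1 := by
      funext ω
      by_cases hω : S ω ∈ crossSet Q a a'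
      · rw [indicator_of_mem hω, indicator_of_mem (show ω ∈ {ω | S ω ∈ crossSet Q a a'} from hω)]
        rfl
      · rw [indicator_of_notMem hω,
          indicator_of_notMem (show ω ∉ {ω | S ω ∈ crossSet Q a a'} from hω)]
    rw [e, lintegral_indicator_one hAm, integral_indicator hAm, setIntegral_const]
    simp [measureReal_def]
  · refine Eventually.of_forall fun ω => lt_of_le_of_lt (F.avg_le_one (fun T => ?_) _)
      ENNReal.one_lt_top
    exact Set.indicator_le_self' (fun _ _ => zero_le) T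

/-- The `L¹` distance of the conditional probability to a constant. -/
theorem cond_dist_le (h : IsColouredPoisson P S lam) (hlam : 0 < lam) (Q : Quad) (a a' : Fin 4)
    (R : ℝ) {c η : ℝ} (hη : 0 ≤ η) :
    ∫ ω, |(P[{ω | Q.Cross a a' (blackRegion (S ω))}.indicator (fun _ => (1 : ℝ)) | posSigma S]) ω
        - c| ∂P ≤
      ((P {ω | Q.Cross a a' (blackRegion (S ω))}).toReal - c) +
        2 * (η + |c| * (P {ω | ¬ c - η ≤ qcross Q a a' R (S ω)}).toReal) := by
  have hm := posSigma_le h
  obtain ⟨hq, hint⟩ := F.mean_qcross h Q a a' R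
  have hqi : Integrable (fun ω => qcross Q a a' R (S ω)) P :=
    Integrable.of_bound hq.aestronglyMeasurable 1 (Eventually.of_forall fun ω => by
      rw [Real.norm_eq_abs, abs_of_nonneg (F.qcross_nonneg _ _ _ _ _)]
      exact F.qcross_le_one _ _ _ _ _)
  have hg := ae_goodBd' kPoint2 colours2 hlam Q h
  have he : {ω | Q.Cross a a' (blackRegion (S ω))} =ᵐ[P] {ω | S ω ∈ crossSet Q a a'} := by
    filter_upwards [hg] with ω hω
    refine propext ?_
    change Q.Cross a a' (blackRegion (S ω)) ↔ S ω ∈ crossSet Q a a'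
    rw [region (S ω) hω.toGood]
    exact Iff.rfl
  rw [measure_congr he, ← hint]
  -- contraction
  have h1 : (fun ω => |(P[{ω | Q.Cross a a' (blackRegion (S ω))}.indicator (fun _ => (1 : ℝ)) |
      posSigma S]) ω - c|) =ᵐ[P]
      fun ω => |(P[(fun ω => qcross Q a a' R (S ω)) - (fun _ => c) | posSigma S]) ω| := by
    filter_upwards [condExp_qcross h hlam Q a a' R,
      condExp_sub hqi (integrable_const c) (posSigma S)] with ω h2 h3
    rw [h2, h3, Pi.sub_apply, condExp_const hm]
  rw [integral_congr_ae h1]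
  refine (integral_abs_condExp_le _).trans ?_
  -- pointwise bound
  set A : Set Ω := {ω | ¬ c - η ≤ qcross Q a a' R (S ω)} with hA
  have hAm : MeasurableSet A := (measurableSet_le measurable_const hq).compl
  have hiA : Integrable (A.indicator fun _ => |c|) P := (integrable_const _).indicator hAm
  have hI1 : Integrable (fun ω => qcross Q a a' R (S ω) - c) P := hqi.sub (integrable_const c)
  have hI2 : Integrable (fun ω => 2 * (η + A.indicator (fun _ => |c|) ω)) P :=
    ((integrable_const η).add hiA).const_mul 2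
  have key : ∀ ω, |((fun ω => qcross Q a a' R (S ω)) - (fun _ => c) : Ω → ℝ) ω| ≤
      (qcross Q a a' R (S ω) - c) + 2 * (η + A.indicator (fun _ => |c|) ω) := by
    intro ω
    simp only [Pi.sub_apply]
    have h0 := F.qcross_nonneg Q a a' R (S ω)
    have hc := le_abs_self c
    have hc' := abs_nonneg c
    by_cases hω : ω ∈ A
    · rw [indicator_of_mem hω, abs_le]
      constructor <;> linarith
    · rw [indicator_of_notMem hω, abs_le]
      have h1 : c - η ≤ qcross Q a a' R (S ω) := not_not.1 hω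
      constructor <;> linarith
  refine (integral_mono (hqi.sub (integrable_const c)).abs (hI1.add hI2) key).trans (le_of_eq ?_)
  have e1 : ∫ ω, ((fun ω => qcross Q a a' R (S ω) - c) +
      fun ω => 2 * (η + A.indicator (fun _ => |c|) ω)) ω ∂P =
      ∫ ω, (qcross Q a a' R (S ω) - c) ∂P + ∫ ω, 2 * (η + A.indicator (fun _ => |c|) ω) ∂P :=
    integral_add hI1 hI2
  have e2 : ∫ ω, (η + A.indicator (fun _ => |c|) ω) ∂P = η + |c| * (P A).toReal := by
    rw [integral_add (integrable_const η) hiA, integral_indicator_const _ hAm]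
    simp [measureReal_def, mul_comm]
  refine e1.trans ?_
  rw [integral_sub hqi (integrable_const c), integral_const_mul, e2]
  simp [measureReal_def]

end prob

section fam

/-- The lower bound of the quenched crossing probability. -/
theorem low_of_stmts (hBV : BVStmt.{u}) (hSS : SStmt.{u}) (hL : LLNStmt.{u}) (hX : XStmt.{u})
    (Q : Quad) (φ : ℂ → ℂ) (x : ℝ) (hφ : Q.IsUniformizer φ x) :
    ∃ R : ℝ, ∀ η > 0, ∀ᶠ m in whp.{u}, cardy x - η ≤ qcross Q 0 2 R m.2 := by
  obtain ⟨ι, l, m, E, E', hm, hC, hC', R, hb⟩ := hX Q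
  have h2 := (F.limit_of_stmts hBV hSS hL hφ hm.le hC).1
  refine ⟨R, fun η hη => ?_⟩
  rw [← hm]
  obtain ⟨δ, hδ, k⟩ := h2 (η / 2) (by positivity)
  change ∀ᶠ i in l, cardy x - η ≤ qcross Q 0 2 R (m i).2
  filter_upwards [k, hb (η / 2) (by positivity) δ hδ] with i e1 e2
  obtain ⟨z, hz, hzd, hzq⟩ := e2.1
  have := abs_le.1 (e1 z hz hzd)
  linarith [this.1]

variable {Ω : ℝ → Type u} [∀ ε, MeasurableSpace (Ω ε)] {P : ∀ ε, Measure (Ω ε)}
  [∀ ε, IsProbabilityMeasure (P ε)] {S : ∀ ε, Ω ε → Set Pt}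

/-- **Convergence of the crossing probability conditional on the points**, from the four
interfaces: the conditional probability given the positions of the points converges in `L¹`. -/
theorem quenched_of_stmts (hBV : BVStmt.{u}) (hSS : SStmt.{u}) (hL : LLNStmt.{u}) (hX : XStmt.{u})
    (Q : Quad) (φ : ℂ → ℂ) (x : ℝ) (hφ : Q.IsUniformizer φ x)
    (hS : ∀ ε > 0, IsColouredPoisson (P ε) (S ε) (Real.toNNReal (ε ^ (-2 : ℤ)))) :
    Tendsto (fun ε => ∫ ω, |((P ε)[{ω | Q.Cross 0 2 (blackRegion (S ε ω))}.indicator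
      (fun _ => (1 : ℝ)) | posSigma (S ε)]) ω - cardy x| ∂(P ε)) (𝓝[>] 0) (𝓝 0) := by
  obtain ⟨R, hR⟩ := low_of_stmts hBV hSS hL hX Q φ x hφ
  have hlim := F.cardy_of_stmts hBV hSS hL hX Q φ x hφ hS
  rw [Metric.tendsto_nhds]
  intro κ hκ
  have hη : 0 < κ / 8 := by positivity
  have h1 := eventually_whp.1 (hR _ hη) Ω P S hS
  have h2 : ∀ᶠ ε in 𝓝[>] (0 : ℝ), P ε {ω | ¬ cardy x - κ / 8 ≤ qcross Q 0 2 R (S ε ω)} ≤
      ENNReal.ofReal (κ / 8 / (|cardy x| + 1)) :=
    (ENNReal.tendsto_nhds_zero.1 h1) _ (ENNReal.ofReal_pos.2 (by positivity))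
  filter_upwards [h2, self_mem_nhdsWithin, (Metric.tendsto_nhds.1 hlim) (κ / 8) hη]
    with ε h3 hε h4
  have hε' : (0 : ℝ) < ε := hε
  have hlam : 0 < Real.toNNReal (ε ^ (-2 : ℤ)) := Real.toNNReal_pos.2 (by positivity)
  have key := cond_dist_le (hS ε hε') hlam Q 0 2 R (c := cardy x) hη.le
  have h5 : (P ε {ω | ¬ cardy x - κ / 8 ≤ qcross Q 0 2 R (S ε ω)}).toReal ≤
      κ / 8 / (|cardy x| + 1) := ENNReal.toReal_le_of_le_ofReal (by positivity) h3
  have h6 : |cardy x| * (P ε {ω | ¬ cardy x - κ / 8 ≤ qcross Q 0 2 R (S ε ω)}).toReal ≤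
      κ / 8 := by
    calc |cardy x| * (P ε {ω | ¬ cardy x - κ / 8 ≤ qcross Q 0 2 R (S ε ω)}).toReal
        ≤ |cardy x| * (κ / 8 / (|cardy x| + 1)) := by gcongr
      _ = κ / 8 * (|cardy x| / (|cardy x| + 1)) := by ring
      _ ≤ κ / 8 * 1 := by
          gcongr
          rw [div_le_one (by positivity)]
          linarith
      _ = κ / 8 := mul_one _
  rw [Real.dist_eq, abs_lt] at h4
  rw [Real.dist_eq, sub_zero, abs_of_nonneg (integral_nonneg fun ω => abs_nonneg _)]
  linarith [h4.2]

/-- The crossing event is measurable up to a null set. -/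
theorem nullMeasurable_cross {Ω : Type u} [MeasurableSpace Ω] {P : Measure Ω}
    [IsProbabilityMeasure P] {S : Ω → Set Pt} {lam : ℝ≥0} (hlam : 0 < lam)
    (h : IsColouredPoisson P S lam) (Q : Quad) :
    NullMeasurableSet {ω | Q.Cross 0 2 (blackRegion (S ω))} P :=
  (duality kPoint2 colours2 hlam h Q).2.1

end fam

end Vale.Agent.P148.R2.H771
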