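import Vale.Agent.P148.Defs

/-!
# P148: quads, in terms of Jordan curves
-/

open Set Topology Metric Filter

namespace P148

/-- A quad: a bounded domain `D` of the plane whose boundary is a Jordan curve, with four marked
points `a = γ 0`, `b = γ 1`, `c = γ 2`, `d = γ 3` on its boundary, in the order of the
parametrisation `γ` of the boundary by the circle `ℝ / 4ℤ`. -/
structure JQuad where
  D : Set ℂ
  γ : AddCircle (4 : ℝ) → ℂ
  isOpen : IsOpen D
  isConnected : IsConnected D
  isBounded : Bornology.IsBounded D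
  cont : Continuous γ
  inj : Function.Injective γ
  bdry : frontier D = range γ

namespace JQuad

variable (Q : JQuad)

/-- The marked points `a`, `b`, `c`, `d`. -/
def mark (i : Fin 4) : ℂ := Q.γ ((i : ℕ) : ℝ)

/-- The boundary arcs `ab`, `bc`, `cd`, `da`, with their endpoints. -/
def arc (i : Fin 4) : Set ℂ := (fun t : ℝ => Q.γ t) '' Icc ((i : ℕ) : ℝ) ((i : ℕ) + 1)

/-- `R ∩ closure D` contains a connected set meeting the arcs `i` and `j`. -/
def Cross (i j : Fin 4) (R : Set ℂ) : Prop :=
  ∃ K ⊆ R ∩ closure Q.D, IsConnected K ∧ (K ∩ Q.arc i).Nonempty ∧ (K ∩ Q.arc j).Nonempty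

/-- `φ` is a conformal map of `D` onto the upper half-plane, extended continuously to the closure,
with `φ(a) = 0`, `φ(b) = x`, `φ(c) = 1`, `φ(d) = ∞`. -/
structure IsUniformizer (φ : ℂ → ℂ) (x : ℝ) : Prop where
  hol : DifferentiableOn ℂ φ Q.D
  bij : BijOn φ Q.D {w | 0 < w.im}
  cont : ContinuousOn φ (closure Q.D \ {Q.mark 3})
  at_a : φ (Q.mark 0) = 0
  at_b : φ (Q.mark 1) = x
  at_c : φ (Q.mark 2) = 1
  at_d : Tendsto (fun z => ‖φ z‖) (𝓝[Q.D] (Q.mark 3)) atTop

/-- The same domain and the same marked points in the reversed order `d`, `c`, `b`, `a`. -/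
def rev : JQuad where
  D := Q.D
  γ t := Q.γ (((3 : ℝ) : AddCircle (4 : ℝ)) - t)
  isOpen := Q.isOpen
  isConnected := Q.isConnected
  isBounded := Q.isBounded
  cont := by
    have h : Continuous fun t : AddCircle (4 : ℝ) => ((3 : ℝ) : AddCircle (4 : ℝ)) - t :=
      continuous_sub_left _
    exact Q.cont.comp h
  inj _ _ h := sub_right_injective (Q.inj h)
  bdry := by
    rw [Q.bdry]
    apply Subset.antisymm
    · rintro _ ⟨t, rfl⟩
      exact ⟨((3 : ℝ) : AddCircle (4 : ℝ)) - t, by simp⟩
    · rintro _ ⟨t, rfl⟩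
      exact ⟨_, rfl⟩

end JQuad

end P148
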