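import Vale.Agent.P148.R2.H771.Sch2
import Vale.Agent.P148.R2.H771.JQuad
import Vale.Agent.P153.R2.R1.Jordan

/-!
# The theorem of Schoenflies, part 3: quads

Every quad in the sense of Jordan curves is the image of the square with its corners and sides
under a homeomorphism of the plane.
-/

open Set Topology Metric Filter Bornology

namespace Vale.Agent.P148.R2.H771

open Vale.Agent.P153.R2.R1 _root_.P148

/-! ### Radial extensions -/

section radial

variable {E : Type*} [NormedAddCommGroup E] [NormedSpace ℝ E] {b : ℝ → E}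

/-- The radial extension. -/
noncomputable def rad (hper : Function.Periodic b (2 * Real.pi)) (z : ℂ) : E :=
  ‖z‖ • hper.lift (z.arg : Real.Angle)

theorem rad_eq (hper : Function.Periodic b (2 * Real.pi)) (z : ℂ) : rad hper z = ‖z‖ • b z.arg := by
  unfold rad
  exact congrArg (fun w => ‖z‖ • w) (hper.lift_coe z.arg)

theorem norm_rad (hper : Function.Periodic b (2 * Real.pi)) (hb : ∀ t, ‖b t‖ = 1) (z : ℂ) :
    ‖rad hper z‖ = ‖z‖ := by
  rw [rad_eq, norm_smul, norm_norm, hb, mul_one]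

theorem continuous_rad (hper : Function.Periodic b (2 * Real.pi)) (hb : ∀ t, ‖b t‖ = 1)
    (hc : Continuous b) : Continuous (rad hper) := by
  rw [continuous_iff_continuousAt]
  intro z
  by_cases hz : z = 0
  · subst hz
    have h0 : rad hper 0 = 0 := by rw [rad_eq, norm_zero, zero_smul]
    unfold ContinuousAt
    rw [h0, tendsto_zero_iff_norm_tendsto_zero]
    have h1 : (fun x => ‖rad hper x‖) = fun x => ‖x‖ := funext (norm_rad hper hb)
    rw [h1]
    simpa using (continuous_norm (E := ℂ)).tendsto 0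
  · have h1 : Continuous (hper.lift : Real.Angle → E) := continuous_coinduced_dom.mpr hc
    have h2 := h1.continuousAt.comp (Complex.continuousAt_arg_coe_angle hz)
    exact continuous_norm.continuousAt.smul h2

theorem rad_exp (hper : Function.Periodic b (2 * Real.pi)) (t : ℝ) :
    rad hper (Complex.exp (t * Complex.I)) = b t := by
  rw [rad_eq, Complex.norm_exp_ofReal_mul_I, one_smul]
  have h1 : ((Complex.exp (t * Complex.I)).arg : Real.Angle) = (t : Real.Angle) := by
    have := Complex.arg_mul_cos_add_sin_mul_I_coe_angle (r := 1) one_pos (t : Real.Angle)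
    rw [Real.Angle.cos_coe, Real.Angle.sin_coe] at this
    rw [Complex.exp_mul_I]
    push_cast at this
    rwa [one_mul] at this
  rw [Real.Angle.angle_eq_iff_two_pi_dvd_sub] at h1
  obtain ⟨k, hk⟩ := h1
  have h2 : (Complex.exp (t * Complex.I)).arg = t + k * (2 * Real.pi) := by linarith
  rw [h2]
  have := hper.int_mul k t
  exact this

theorem rad_injective (hper : Function.Periodic b (2 * Real.pi)) (hb : ∀ t, ‖b t‖ = 1)
    (hinj : ∀ s t, b s = b t → ∃ k : ℤ, s = t + k * (2 * Real.pi)) :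
    Function.Injective (rad hper) := by
  intro z w h
  have h1 : ‖z‖ = ‖w‖ := by rw [← norm_rad hper hb, h, norm_rad hper hb]
  by_cases hz : z = 0
  · subst hz
    rw [norm_zero] at h1
    exact (norm_eq_zero.1 h1.symm).symm
  · rw [rad_eq, rad_eq, ← h1] at h
    have h2 : b z.arg = b w.arg := smul_right_injective _ (norm_ne_zero_iff.2 hz) h
    obtain ⟨k, hk⟩ := hinj _ _ h2
    refine Complex.ext_norm_arg h1 ?_
    have h3 := Complex.neg_pi_lt_arg z
    have h4 := Complex.arg_le_pi z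
    have h5 := Complex.neg_pi_lt_arg w
    have h6 := Complex.arg_le_pi w
    have h7 : (k : ℝ) < 1 := by
      by_contra h
      push Not at h
      nlinarith [Real.pi_pos]
    have h8 : (-1 : ℝ) < k := by
      by_contra h
      push Not at h
      nlinarith [Real.pi_pos]
    have h9 : k = 0 := by
      have h10 : k < 1 := by exact_mod_cast h7
      have h11 : -1 < k := by exact_mod_cast h8
      omega
    rw [h9] at hk
    simpa using hk

theorem rad_surjective (hper : Function.Periodic b (2 * Real.pi)) (hr : sphere 0 1 ⊆ range b) :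
    Function.Surjective (rad hper) := by
  intro w
  by_cases hw : w = 0
  · exact ⟨0, by rw [rad_eq, norm_zero, zero_smul, hw]⟩
  · have hw' : 0 < ‖w‖ := norm_pos_iff.2 hw
    obtain ⟨t, ht⟩ := hr (show ‖w‖⁻¹ • w ∈ sphere (0 : E) 1 by
      rw [mem_sphere_zero_iff_norm, norm_smul, norm_inv, norm_norm, inv_mul_cancel₀ hw'.ne'])
    refine ⟨(‖w‖ : ℂ) * Complex.exp (t * Complex.I), ?_⟩
    have h1 : ((‖w‖ : ℂ) * Complex.exp (t * Complex.I)).arg = (Complex.exp (t * Complex.I)).arg :=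
      Complex.arg_real_mul _ hw'
    have h2 : ‖Complex.exp (t * Complex.I)‖ = 1 := Complex.norm_exp_ofReal_mul_I t
    have h3 := rad_exp hper t
    rw [rad_eq, h2, one_smul] at h3
    rw [rad_eq, h1, h3, norm_mul, h2, mul_one, Complex.norm_real, norm_norm, ht, smul_smul,
      mul_inv_cancel₀ hw'.ne', one_smul]

/-- **The radial extension** of a parametrisation of the unit sphere of a normed plane. -/
theorem exists_radial [ProperSpace E] (hc : Continuous b) (hper : ∀ t, b (t + 2 * Real.pi) = b t)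
    (hinj : ∀ s t, b s = b t → ∃ k : ℤ, s = t + k * (2 * Real.pi))
    (hr : range b = sphere 0 1) :
    ∃ Ψ : ℂ ≃ₜ E, (∀ z, ‖Ψ z‖ = ‖z‖) ∧ ∀ t : ℝ, Ψ (Complex.exp (t * Complex.I)) = b t := by
  have hp : Function.Periodic b (2 * Real.pi) := hper
  have hb : ∀ t, ‖b t‖ = 1 := fun t =>
    mem_sphere_zero_iff_norm.1 (hr ▸ mem_range_self t)
  have hbij : Function.Bijective (rad hp) := ⟨rad_injective hp hb hinj, rad_surjective hp hr.symm.le⟩
  have hcon := continuous_rad hp hb hc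
  have hprop : IsProperMap (rad hp) := by
    rw [isProperMap_iff_tendsto_cocompact]
    refine ⟨hcon, ?_⟩
    rw [← cobounded_eq_cocompact, ← cobounded_eq_cocompact, ← tendsto_norm_atTop_iff_cobounded]
    have h1 : (fun x => ‖rad hp x‖) = fun x => ‖x‖ := funext (norm_rad hp hb)
    rw [h1]
    exact tendsto_norm_cobounded_atTop
  set Ψ := (Equiv.ofBijective (rad hp) hbij).toHomeomorphOfContinuousClosed hcon
    hprop.isClosedMap with hΨ
  have hΨz : ∀ z, Ψ z = rad hp z := fun z => rfl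
  exact ⟨Ψ, fun z => by rw [hΨz, norm_rad hp hb], fun t => by rw [hΨz, rad_exp]⟩

/-- The radial extension of an injective map of the circle `ℝ / 4ℤ` onto the unit sphere. -/
theorem exists_radial4 [ProperSpace E] {β : AddCircle (4 : ℝ) → E} (hc : Continuous β)
    (hinj : Function.Injective β) (hr : range β = sphere 0 1) :
    ∃ Ψ : ℂ ≃ₜ E, (∀ z, ‖Ψ z‖ = ‖z‖) ∧
      ∀ t : ℝ, Ψ (Complex.exp ((t * (Real.pi / 2) : ℝ) * Complex.I)) = β t := by
  have hπ := Real.pi_pos
  obtain ⟨Ψ, h1, h2⟩ := exists_radial (b := fun t : ℝ => β ((t / (Real.pi / 2) : ℝ)))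
    (hc.comp ((AddCircle.continuous_mk' 4).comp (by fun_prop))) (fun t => by
      have e : (t + 2 * Real.pi) / (Real.pi / 2) = t / (Real.pi / 2) + 4 := by
        field_simp
        ring
      rw [e, AddCircle.coe_add_period]) (fun s t h => by
      have h3 := hinj h
      rw [← sub_eq_zero, ← AddCircle.coe_sub, AddCircle.coe_eq_zero_iff] at h3
      obtain ⟨k, hk⟩ := h3
      refine ⟨k, ?_⟩
      rw [zsmul_eq_mul] at hk
      field_simp at hk
      linarith) (by
      rw [← hr]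
      apply Subset.antisymm
      · rintro _ ⟨t, rfl⟩
        exact ⟨_, rfl⟩
      · rintro _ ⟨x, rfl⟩
        induction x using QuotientAddGroup.induction_on with
        | H x =>
          refine ⟨x * (Real.pi / 2), ?_⟩
          have e : x * (Real.pi / 2) / (Real.pi / 2) = x := by field_simp
          simp only [e])
  refine ⟨Ψ, h1, fun t => ?_⟩
  rw [h2]
  have e : t * (Real.pi / 2) / (Real.pi / 2) = t := by field_simp
  rw [e]

end radial

/-! ### The boundary of the square -/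

/-- `0` before `0`, `s` between `0` and `1`, `1` after `1`. -/
noncomputable def cl (s : ℝ) : ℝ := max 0 (min 1 s)

theorem cl_of_le {s : ℝ} (h : s ≤ 0) : cl s = 0 := by
  unfold cl
  rw [min_eq_right (by linarith), max_eq_left h]

theorem cl_of_ge {s : ℝ} (h : 1 ≤ s) : cl s = 1 := by
  unfold cl
  rw [min_eq_left h, max_eq_right zero_le_one]

theorem cl_of_mem {s : ℝ} (h0 : 0 ≤ s) (h1 : s ≤ 1) : cl s = s := by
  unfold cl
  rw [min_eq_right h1, max_eq_right h0]

/-- The boundary of the square, counterclockwise from the corner `(-1, -1)`. -/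
noncomputable def sqp (t : ℝ) : ℝ × ℝ :=
  (-1 + 2 * cl t - 2 * cl (t - 2), -1 + 2 * cl (t - 1) - 2 * cl (t - 3))

theorem continuous_sqp : Continuous sqp := by
  unfold sqp cl
  fun_prop

theorem sqp0 {t : ℝ} (h0 : 0 ≤ t) (h1 : t ≤ 1) : sqp t = (-1 + 2 * t, -1) := by
  unfold sqp
  rw [cl_of_mem h0 h1, cl_of_le (s := t - 2) (by linarith), cl_of_le (s := t - 1) (by linarith),
    cl_of_le (s := t - 3) (by linarith)]
  ext <;> simp

theorem sqp1 {t : ℝ} (h0 : 1 ≤ t) (h1 : t ≤ 2) : sqp t = (1, -1 + 2 * (t - 1)) := by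
  unfold sqp
  rw [cl_of_ge (s := t) h0, cl_of_le (s := t - 2) (by linarith),
    cl_of_mem (s := t - 1) (by linarith) (by linarith), cl_of_le (s := t - 3) (by linarith)]
  ext <;> norm_num

theorem sqp2 {t : ℝ} (h0 : 2 ≤ t) (h1 : t ≤ 3) : sqp t = (1 - 2 * (t - 2), 1) := by
  unfold sqp
  rw [cl_of_ge (s := t) (by linarith), cl_of_mem (s := t - 2) (by linarith) (by linarith),
    cl_of_ge (s := t - 1) (by linarith), cl_of_le (s := t - 3) (by linarith)]
  ext <;> norm_num

theorem sqp3 {t : ℝ} (h0 : 3 ≤ t) (h1 : t ≤ 4) : sqp t = (-1, 1 - 2 * (t - 3)) := by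
  unfold sqp
  rw [cl_of_ge (s := t) (by linarith), cl_of_ge (s := t - 2) (by linarith),
    cl_of_ge (s := t - 1) (by linarith), cl_of_mem (s := t - 3) (by linarith) (by linarith)]
  ext <;> norm_num

theorem sqp_injOn : InjOn sqp (Ico 0 4) := by
  intro s hs t ht h
  obtain ⟨hs0, hs1⟩ := hs
  obtain ⟨ht0, ht1⟩ := ht
  have hs' : (0 ≤ s ∧ s ≤ 1) ∨ (1 < s ∧ s ≤ 2) ∨ (2 < s ∧ s ≤ 3) ∨ (3 < s ∧ s < 4) := by
    rcases le_or_gt s 1 with h1 | h1
    · exact Or.inl ⟨hs0, h1⟩
    rcases le_or_gt s 2 with h2 | h2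
    · exact Or.inr (Or.inl ⟨h1, h2⟩)
    rcases le_or_gt s 3 with h3 | h3
    · exact Or.inr (Or.inr (Or.inl ⟨h2, h3⟩))
    · exact Or.inr (Or.inr (Or.inr ⟨h3, hs1⟩))
  have ht' : (0 ≤ t ∧ t ≤ 1) ∨ (1 < t ∧ t ≤ 2) ∨ (2 < t ∧ t ≤ 3) ∨ (3 < t ∧ t < 4) := by
    rcases le_or_gt t 1 with h1 | h1
    · exact Or.inl ⟨ht0, h1⟩
    rcases le_or_gt t 2 with h2 | h2
    · exact Or.inr (Or.inl ⟨h1, h2⟩)
    rcases le_or_gt t 3 with h3 | h3
    · exact Or.inr (Or.inr (Or.inl ⟨h2, h3⟩))
    · exact Or.inr (Or.inr (Or.inr ⟨h3, ht1⟩))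
  rcases hs' with ⟨a, b⟩ | ⟨a, b⟩ | ⟨a, b⟩ | ⟨a, b⟩ <;>
    rcases ht' with ⟨c, d⟩ | ⟨c, d⟩ | ⟨c, d⟩ | ⟨c, d⟩ <;>
    first
    | rw [sqp0 a b] at h
    | rw [sqp1 a.le b] at h
    | rw [sqp2 a.le b] at h
    | rw [sqp3 a.le b.le] at h
  all_goals
    first
    | rw [sqp0 c d] at h
    | rw [sqp1 c.le d] at h
    | rw [sqp2 c.le d] at h
    | rw [sqp3 c.le d.le] at h
  all_goals
    rw [Prod.mk.injEq] at h
    obtain ⟨h1, h2⟩ := h
    linarith

theorem sqp_image : sqp '' Icc 0 4 = sphere 0 1 := by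
  apply Subset.antisymm
  · rintro _ ⟨t, ⟨h0, h4⟩, rfl⟩
    rw [mem_sphere_zero_iff_norm, Prod.norm_def, Real.norm_eq_abs, Real.norm_eq_abs]
    rcases le_or_gt t 1 with h1 | h1
    · rw [sqp0 h0 h1]
      simp only [abs_neg, abs_one]
      exact max_eq_right (abs_le.2 ⟨by linarith, by linarith⟩)
    rcases le_or_gt t 2 with h2 | h2
    · rw [sqp1 h1.le h2]
      simp only [abs_one]
      exact max_eq_left (abs_le.2 ⟨by linarith, by linarith⟩)
    rcases le_or_gt t 3 with h3 | h3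
    · rw [sqp2 h2.le h3]
      simp only [abs_one]
      exact max_eq_right (abs_le.2 ⟨by linarith, by linarith⟩)
    · rw [sqp3 h3.le h4]
      simp only [abs_neg, abs_one]
      exact max_eq_left (abs_le.2 ⟨by linarith, by linarith⟩)
  · rintro ⟨x, y⟩ h
    rw [mem_sphere_zero_iff_norm, Prod.norm_def, Real.norm_eq_abs, Real.norm_eq_abs] at h
    simp only at h
    have hx : |x| ≤ 1 := h ▸ le_max_left _ _
    have hy : |y| ≤ 1 := h ▸ le_max_right _ _
    have hxy : |x| = 1 ∨ |y| = 1 := by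
      rcases max_choice |x| |y| with h1 | h1
      · exact Or.inl (h1 ▸ h)
      · exact Or.inr (h1 ▸ h)
    rw [abs_le] at hx hy
    rcases hxy with h1 | h1
    · rcases (abs_eq zero_le_one).1 h1 with rfl | rfl
      · refine ⟨1 + (y + 1) / 2, ⟨by linarith, by linarith⟩, ?_⟩
        rw [sqp1 (by linarith) (by linarith)]
        ext <;> simp; ring
      · refine ⟨3 + (1 - y) / 2, ⟨by linarith, by linarith⟩, ?_⟩
        rw [sqp3 (by linarith) (by linarith)]
        ext <;> simp; ring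
    · rcases (abs_eq zero_le_one).1 h1 with rfl | rfl
      · refine ⟨2 + (1 - x) / 2, ⟨by linarith, by linarith⟩, ?_⟩
        rw [sqp2 (by linarith) (by linarith)]
        ext <;> simp; ring
      · refine ⟨(x + 1) / 2, ⟨by linarith, by linarith⟩, ?_⟩
        rw [sqp0 (by linarith) (by linarith)]
        ext <;> simp; ring

theorem sqp_four : sqp 0 = sqp 4 := by
  rw [sqp0 le_rfl zero_le_one, sqp3 (by norm_num) le_rfl]
  ext <;> norm_num

local instance : Fact ((0 : ℝ) < 4) := ⟨by norm_num⟩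

/-- The boundary of the square, parametrised by the circle. -/
noncomputable def sqc : AddCircle (4 : ℝ) → ℝ × ℝ := AddCircle.liftIco 4 0 sqp

theorem sqc_coe {t : ℝ} (h0 : 0 ≤ t) (h4 : t ≤ 4) : sqc t = sqp t := by
  rcases h4.lt_or_eq with h | rfl
  · exact AddCircle.liftIco_zero_coe_apply ⟨h0, h⟩
  · have e : ((4 : ℝ) : AddCircle (4 : ℝ)) = ((0 : ℝ) : AddCircle (4 : ℝ)) := by
      rw [AddCircle.coe_period, AddCircle.coe_zero]
    rw [e, ← sqp_four]
    exact AddCircle.liftIco_zero_coe_apply ⟨le_rfl, by norm_num⟩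

theorem continuous_sqc : Continuous sqc :=
  AddCircle.liftIco_zero_continuous sqp_four continuous_sqp.continuousOn

theorem exists_rep (x : AddCircle (4 : ℝ)) : ∃ t : ℝ, (0 ≤ t ∧ t < 4) ∧ (t : AddCircle (4 : ℝ)) = x := by
  obtain ⟨t, ht, he⟩ := AddCircle.eq_coe_Ico x
  exact ⟨t, ht, he⟩

theorem sqc_injective : Function.Injective sqc := by
  intro x y h
  obtain ⟨s, hs, rfl⟩ := exists_rep x
  obtain ⟨t, ht, rfl⟩ := exists_rep y
  rw [sqc_coe hs.1 hs.2.le, sqc_coe ht.1 ht.2.le] at h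
  rw [sqp_injOn hs ht h]

theorem range_sqc : range sqc = sphere 0 1 := by
  rw [← sqp_image]
  apply Subset.antisymm
  · rintro _ ⟨x, rfl⟩
    obtain ⟨s, hs, rfl⟩ := exists_rep x
    exact ⟨s, ⟨hs.1, hs.2.le⟩, (sqc_coe hs.1 hs.2.le).symm⟩
  · rintro _ ⟨s, hs, rfl⟩
    exact ⟨s, sqc_coe hs.1 hs.2⟩

/-! ### Quads -/

/-- The boundary of a quad is a Jordan curve. -/
theorem jcurve (Q : JQuad) : JCurve (fun t : ℝ => Q.γ t) 4 where
  pos := by norm_num
  cont := Q.cont.comp (AddCircle.continuous_mk' 4)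
  per x := by simp only [AddCircle.coe_add_period]
  inj x y h := by
    have h3 := Q.inj h
    rw [← sub_eq_zero, ← AddCircle.coe_sub, AddCircle.coe_eq_zero_iff] at h3
    obtain ⟨k, hk⟩ := h3
    refine ⟨k, ?_⟩
    rw [zsmul_eq_mul] at hk
    linarith

theorem range_coe (Q : JQuad) : range (fun t : ℝ => Q.γ t) = range Q.γ := by
  apply Subset.antisymm
  · rintro _ ⟨t, rfl⟩
    exact ⟨_, rfl⟩
  · rintro _ ⟨x, rfl⟩
    obtain ⟨s, -, rfl⟩ := exists_rep x
    exact ⟨s, rfl⟩

/-- **Quads and plane homeomorphisms**: every quad is the image of the square, its corners and its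
sides under a homeomorphism of the plane. -/
theorem exists_homeo (Q : JQuad) : ∃ H : ℂ ≃ₜ ℂ, H '' {z | |z.re| < 1 ∧ |z.im| < 1} = Q.D ∧
    ∀ t : ℝ, 0 ≤ t → t ≤ 4 → H ⟨(sqp t).1, (sqp t).2⟩ = Q.γ t := by
  obtain ⟨H, hH1, hH2⟩ := schoenflies (jcurve Q) Q.isOpen Q.isConnected Q.isBounded
    (by rw [range_coe, Q.bdry])
  rw [range_coe] at hH2
  obtain ⟨Ψ₁, h11, h12⟩ := exists_radial4 (β := fun x => H.symm (Q.γ x))
    (H.symm.continuous.comp Q.cont) (H.symm.injective.comp Q.inj) (by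
      rw [range_comp' H.symm Q.γ, ← hH2, image_image]
      simp only [Homeomorph.symm_apply_apply, image_id'])
  obtain ⟨Ψ₂, h21, h22⟩ := exists_radial4 (β := sqc) continuous_sqc sqc_injective range_sqc
  refine ⟨(Complex.equivRealProdCLM.toHomeomorph.trans Ψ₂.symm).trans (Ψ₁.trans H), ?_, ?_⟩
  · have e1 : Complex.equivRealProdCLM.toHomeomorph '' {z : ℂ | |z.re| < 1 ∧ |z.im| < 1} =
        ball 0 1 := by
      apply Subset.antisymm
      · rintro _ ⟨z, ⟨hz1, hz2⟩, rfl⟩
        rw [mem_ball_zero_iff, Prod.norm_def]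
        exact max_lt hz1 hz2
      · rintro ⟨x, y⟩ h
        rw [mem_ball_zero_iff, Prod.norm_def] at h
        exact ⟨⟨x, y⟩, ⟨lt_of_le_of_lt (le_max_left _ _) h, lt_of_le_of_lt (le_max_right _ _) h⟩, rfl⟩
    have e2 : Ψ₂.symm '' ball 0 1 = ball 0 1 := by
      apply Subset.antisymm
      · rintro _ ⟨z, hz, rfl⟩
        rw [mem_ball_zero_iff, ← h21, Ψ₂.apply_symm_apply]
        exact mem_ball_zero_iff.1 hz
      · intro z hz
        refine ⟨Ψ₂ z, ?_, Ψ₂.symm_apply_apply z⟩
        rw [mem_ball_zero_iff, h21]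
        exact mem_ball_zero_iff.1 hz
    have e3 : Ψ₁ '' ball 0 1 = ball 0 1 := by
      apply Subset.antisymm
      · rintro _ ⟨z, hz, rfl⟩
        rw [mem_ball_zero_iff, h11]
        exact mem_ball_zero_iff.1 hz
      · intro z hz
        refine ⟨Ψ₁.symm z, ?_, Ψ₁.apply_symm_apply z⟩
        rw [mem_ball_zero_iff, ← h11, Ψ₁.apply_symm_apply]
        exact mem_ball_zero_iff.1 hz
    show (fun z => H (Ψ₁ (Ψ₂.symm (Complex.equivRealProdCLM.toHomeomorph z)))) '' _ = Q.D
    rw [← hH1, ← e3, ← e2, ← e1, image_image, image_image, image_image]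
  · intro t h0 h4
    have e1 : Complex.equivRealProdCLM.toHomeomorph (⟨(sqp t).1, (sqp t).2⟩ : ℂ) = sqp t := rfl
    show H (Ψ₁ (Ψ₂.symm (Complex.equivRealProdCLM.toHomeomorph ⟨(sqp t).1, (sqp t).2⟩))) = Q.γ t
    rw [e1, ← sqc_coe h0 h4, ← h22, Ψ₂.symm_apply_apply, h12, H.apply_symm_apply]

end Vale.Agent.P148.R2.H771
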