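import Vale.Agent.P148.R2.F.Main
import Vale.Agent.P148.R2.H771.Sch3

/-!
# P148: the final statement for quads in terms of Jordan curves
-/

open MeasureTheory Set Metric Topology Filter ProbabilityTheory
open scoped ENNReal NNReal

namespace Vale.Agent.P148.R2.H771

open _root_.P148

universe u

theorem sqp_zero : sqp 0 = (-1, -1) := by
  rw [sqp0 le_rfl zero_le_one]; simp

theorem sqp_one : sqp 1 = (1, -1) := by
  rw [sqp0 zero_le_one le_rfl]; norm_num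

theorem sqp_two : sqp 2 = (1, 1) := by
  rw [sqp2 le_rfl (by norm_num)]; norm_num

theorem sqp_three : sqp 3 = (-1, 1) := by
  rw [sqp3 le_rfl (by norm_num)]; norm_num

/-- A point of the plane from its coordinates. -/
def mkC (p : ℝ × ℝ) : ℂ := ⟨p.1, p.2⟩

theorem mkC_sqp (i : Fin 4) : mkC (sqp ((i : ℕ) : ℝ)) = corner i := by
  fin_cases i
  · show mkC (sqp ((0 : ℕ) : ℝ)) = _
    rw [Nat.cast_zero, sqp_zero]; rfl
  · show mkC (sqp ((1 : ℕ) : ℝ)) = _
    rw [Nat.cast_one, sqp_one]; rfl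
  · show mkC (sqp ((2 : ℕ) : ℝ)) = _
    rw [Nat.cast_ofNat, sqp_two]; rfl
  · show mkC (sqp ((3 : ℕ) : ℝ)) = _
    rw [Nat.cast_ofNat, sqp_three]; rfl

theorem mkC_side (i : Fin 4) :
    (fun t => mkC (sqp t)) '' Icc ((i : ℕ) : ℝ) ((i : ℕ) + 1) = side i := by
  fin_cases i
  · show (fun t => mkC (sqp t)) '' Icc ((0 : ℕ) : ℝ) ((0 : ℕ) + 1) = {z | |z.re| ≤ 1 ∧ z.im = -1}
    rw [Nat.cast_zero, zero_add]
    apply Subset.antisymm
    · rintro _ ⟨t, ⟨h0, h1⟩, rfl⟩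
      simp only [mkC, sqp0 h0 h1, mem_ofPred_eq, and_true, abs_le]
      constructor <;> linarith
    · rintro z ⟨h1, h2⟩
      rw [abs_le] at h1
      refine ⟨(z.re + 1) / 2, ⟨by linarith, by linarith⟩, ?_⟩
      simp only [mkC]
      rw [sqp0 (by linarith) (by linarith)]
      apply Complex.ext
      · simp only; ring
      · simp only [h2]
  · show (fun t => mkC (sqp t)) '' Icc ((1 : ℕ) : ℝ) ((1 : ℕ) + 1) = {z | z.re = 1 ∧ |z.im| ≤ 1}
    rw [Nat.cast_one]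
    apply Subset.antisymm
    · rintro _ ⟨t, ⟨h0, h1⟩, rfl⟩
      simp only [mkC, sqp1 h0 (by linarith : t ≤ 2), mem_ofPred_eq, true_and, abs_le]
      constructor <;> linarith
    · rintro z ⟨h1, h2⟩
      rw [abs_le] at h2
      refine ⟨1 + (z.im + 1) / 2, ⟨by linarith, by linarith⟩, ?_⟩
      simp only [mkC]
      rw [sqp1 (by linarith) (by linarith)]
      apply Complex.ext
      · simp only [h1]
      · simp only; ring
  · show (fun t => mkC (sqp t)) '' Icc ((2 : ℕ) : ℝ) ((2 : ℕ) + 1) = {z | |z.re| ≤ 1 ∧ z.im = 1}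
    rw [Nat.cast_ofNat]
    apply Subset.antisymm
    · rintro _ ⟨t, ⟨h0, h1⟩, rfl⟩
      simp only [mkC, sqp2 h0 (by linarith : t ≤ 3), mem_ofPred_eq, and_true, abs_le]
      constructor <;> linarith
    · rintro z ⟨h1, h2⟩
      rw [abs_le] at h1
      refine ⟨2 + (1 - z.re) / 2, ⟨by linarith, by linarith⟩, ?_⟩
      simp only [mkC]
      rw [sqp2 (by linarith) (by linarith)]
      apply Complex.ext
      · simp only; ring
      · simp only [h2]
  · show (fun t => mkC (sqp t)) '' Icc ((3 : ℕ) : ℝ) ((3 : ℕ) + 1) = {z | z.re = -1 ∧ |z.im| ≤ 1}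
    rw [Nat.cast_ofNat]
    apply Subset.antisymm
    · rintro _ ⟨t, ⟨h0, h1⟩, rfl⟩
      simp only [mkC, sqp3 h0 (by linarith : t ≤ 4), mem_ofPred_eq, true_and, abs_le]
      constructor <;> linarith
    · rintro z ⟨h1, h2⟩
      rw [abs_le] at h2
      refine ⟨3 + (1 - z.im) / 2, ⟨by linarith, by linarith⟩, ?_⟩
      simp only [mkC]
      rw [sqp3 (by linarith) (by linarith)]
      apply Complex.ext
      · simp only [h1]
      · simp only; ring

/-- Every quad is a quad in the sense of plane homeomorphisms. -/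
theorem exists_quad (Q : JQuad) : ∃ Q' : Quad, Q'.D = Q.D ∧ (∀ i, Q'.mark i = Q.mark i) ∧
    ∀ i, Q'.arc i = Q.arc i := by
  obtain ⟨H, h1, h2⟩ := exists_homeo Q
  have hi : ∀ i : Fin 4, ((i : ℕ) : ℝ) + 1 ≤ 4 := by
    intro i
    have : (i : ℕ) + 1 ≤ 4 := i.2
    exact_mod_cast this
  refine ⟨⟨H⟩, h1, fun i => ?_, fun i => ?_⟩
  · show H (corner i) = Q.γ ((i : ℕ) : ℝ)
    rw [← mkC_sqp]
    exact h2 _ (Nat.cast_nonneg _) (by linarith [hi i])
  · show H '' side i = (fun t : ℝ => Q.γ t) '' Icc ((i : ℕ) : ℝ) ((i : ℕ) + 1)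
    rw [← mkC_side, image_image]
    refine image_congr fun t ht => ?_
    exact h2 t (le_trans (Nat.cast_nonneg _) ht.1) (ht.2.trans (hi i))

theorem cross_iff {Q : JQuad} {Q' : Quad} (hD : Q'.D = Q.D) (ha : ∀ i, Q'.arc i = Q.arc i)
    (i j : Fin 4) (R : Set ℂ) : Q.Cross i j R ↔ Q'.Cross i j R := by
  unfold JQuad.Cross Quad.Cross
  rw [hD, ha, ha]

theorem unif_iff {Q : JQuad} {Q' : Quad} (hD : Q'.D = Q.D) (hm : ∀ i, Q'.mark i = Q.mark i)
    (φ : ℂ → ℂ) (x : ℝ) : Q.IsUniformizer φ x ↔ Q'.IsUniformizer φ x := by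
  constructor
  · rintro ⟨h1, h2, h3, h4, h5, h6, h7⟩
    exact ⟨by rw [hD]; exact h1, by rw [hD]; exact h2, by rw [hD, hm]; exact h3,
      by rw [hm]; exact h4, by rw [hm]; exact h5, by rw [hm]; exact h6,
      by rw [hD, hm]; exact h7⟩
  · rintro ⟨h1, h2, h3, h4, h5, h6, h7⟩
    rw [hD] at h1 h2
    rw [hD, hm] at h3 h7
    rw [hm] at h4 h5 h6
    exact ⟨h1, h2, h3, h4, h5, h6, h7⟩

theorem rev_mark (Q : JQuad) (i : Fin 4) : Q.rev.mark i = Q.mark (3 - i) := by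
  have key : ∀ a b c : ℝ, a - b = c → Q.γ ((a : AddCircle (4 : ℝ)) - b) = Q.γ c := by
    intro a b c h
    rw [← h, AddCircle.coe_sub]
  show Q.γ (((3 : ℝ) : AddCircle (4 : ℝ)) - (((i : ℕ) : ℝ) : AddCircle (4 : ℝ))) =
    Q.γ ((((3 - i : Fin 4) : ℕ) : ℝ) : AddCircle (4 : ℝ))
  refine key _ _ _ ?_
  fin_cases i <;> simp [show (3 : Fin 4) - 1 = 2 from rfl, show (3 : Fin 4) - 2 = 1 from rfl] <;>
    norm_num

theorem rev_arc (Q : JQuad) {i j : Fin 4} (h : (i : ℕ) + (j : ℕ) = 2) : Q.rev.arc i = Q.arc j := by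
  have h' : ((i : ℕ) : ℝ) + ((j : ℕ) : ℝ) = 2 := by exact_mod_cast h
  apply Subset.antisymm
  · rintro _ ⟨t, ⟨h1, h2⟩, rfl⟩
    refine ⟨3 - t, ⟨by linarith, by linarith⟩, ?_⟩
    show Q.γ ((3 - t : ℝ) : AddCircle (4 : ℝ)) = Q.γ (((3 : ℝ) : AddCircle (4 : ℝ)) - t)
    rw [AddCircle.coe_sub]
  · rintro _ ⟨t, ⟨h1, h2⟩, rfl⟩
    refine ⟨3 - t, ⟨by linarith, by linarith⟩, ?_⟩
    show Q.γ (((3 : ℝ) : AddCircle (4 : ℝ)) - ((3 - t : ℝ) : AddCircle (4 : ℝ))) =
      Q.γ (t : AddCircle (4 : ℝ))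
    rw [← AddCircle.coe_sub]
    congr 2
    ring

/-- The crossing event does not depend on the order of the marked points. -/
theorem rev_cross (Q : JQuad) (R : Set ℂ) : Q.rev.Cross 0 2 R ↔ Q.Cross 0 2 R := by
  unfold JQuad.Cross
  rw [rev_arc Q (i := 0) (j := 2) rfl, rev_arc Q (i := 2) (j := 0) rfl]
  constructor <;> rintro ⟨K, h1, h2, h3, h4⟩ <;> exact ⟨K, h1, h2, h4, h3⟩

/-- The final statement, for quads in terms of Jordan curves: (1) coloured Poisson processes exist;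
(2) every quad, or the quad with the marked points in the reversed order, has a uniformizer (and the
two have the same crossing event); (3) the crossing events are measurable up to null sets; (4) the
limit, annealed and conditional on the positions of the points. -/
def FinalJ : Prop :=
  (∀ lam : ℝ≥0, ∃ (Ω : Type u) (_ : MeasurableSpace Ω) (P : Measure Ω)
    (_ : IsProbabilityMeasure P) (S : Ω → Set Pt), IsColouredPoisson P S lam) ∧
  (∀ Q : JQuad, (∀ R, Q.rev.Cross 0 2 R ↔ Q.Cross 0 2 R) ∧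
    ((∃ φ x, Q.IsUniformizer φ x) ∨ ∃ φ x, Q.rev.IsUniformizer φ x)) ∧
  (∀ (Ω : Type u) [m : MeasurableSpace Ω] (P : Measure Ω) [IsProbabilityMeasure P]
    (S : Ω → Set Pt) (lam : ℝ≥0), 0 < lam → IsColouredPoisson P S lam →
    posSigma S ≤ m ∧ ∀ Q : JQuad, NullMeasurableSet {ω | Q.Cross 0 2 (blackRegion (S ω))} P) ∧
  ∀ (Q : JQuad) (φ : ℂ → ℂ) (x : ℝ), Q.IsUniformizer φ x → (0 < x ∧ x < 1) ∧
    ∀ (Ω : ℝ → Type u) [∀ ε, MeasurableSpace (Ω ε)] (P : ∀ ε, Measure (Ω ε))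
      [∀ ε, IsProbabilityMeasure (P ε)] (S : ∀ ε, Ω ε → Set Pt),
      (∀ ε > 0, IsColouredPoisson (P ε) (S ε) (Real.toNNReal (ε ^ (-2 : ℤ)))) →
      Tendsto (fun ε => (P ε {ω | Q.Cross 0 2 (blackRegion (S ε ω))}).toReal) (𝓝[>] 0)
        (𝓝 (cardy x)) ∧
      Tendsto (fun ε => ∫ ω, |((P ε)[{ω | Q.Cross 0 2 (blackRegion (S ε ω))}.indicator
        (fun _ => (1 : ℝ)) | posSigma (S ε)]) ω - cardy x| ∂(P ε)) (𝓝[>] 0) (𝓝 0)

/-- The final statement for quads in terms of Jordan curves follows from the one for images of the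
square under homeomorphisms of the plane (Schoenflies). -/
theorem finalJ_of (h : F.FinalStmt.{u}) : FinalJ.{u} := by
  obtain ⟨h1, h2, h3, h4⟩ := h
  refine ⟨h1, fun Q => ⟨rev_cross Q, ?_⟩, fun Ω m P _ S lam hl hS => ?_, fun Q φ x hφ => ?_⟩
  · obtain ⟨Q', e1, e2, e3⟩ := exists_quad Q
    obtain ⟨Q'', g1, g2, -, φ, x, g4⟩ := h2 Q'
    rcases g2 with g2 | g2
    · left
      exact ⟨φ, x, (unif_iff (g1.trans e1) (fun i => (g2 i).trans (e2 i)) φ x).2 g4⟩
    · right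
      refine ⟨φ, x, (unif_iff (Q := Q.rev) (g1.trans e1) (fun i => ?_) φ x).2 g4⟩
      rw [g2, e2, rev_mark]
  · obtain ⟨k1, k2⟩ := h3 Ω P S lam hl hS
    refine ⟨k1, fun Q => ?_⟩
    obtain ⟨Q', e1, e2, e3⟩ := exists_quad Q
    simp only [cross_iff e1 e3]
    exact k2 Q'
  · obtain ⟨Q', e1, e2, e3⟩ := exists_quad Q
    simp only [cross_iff e1 e3]
    exact h4 Q' φ x ((unif_iff e1 e2 φ x).1 hφ)

end Vale.Agent.P148.R2.H771
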