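import Vale.Agent.P153.R2.R1.Curve
import Vale.Agent.P153.R2.R1.HalfP

/-!
# The theorem of Schoenflies, part 1: Jordan domains

`good_of_curve` : a bounded connected open set which misses a Jordan curve and whose frontier lies
in the curve is a Jordan domain in the sense of `Good`, and its frontier is the curve. The closed
domain does not separate the plane.
-/

open Set Topology Metric Filter Bornology

namespace Vale.Agent.P148.R2.H771

open Vale.Agent.P153.R2.R1

/-! ### Discs and arcs do not separate the plane -/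

theorem isSC_univ : IsSimplyConnected (univ : Set ℂ) := by
  have := (convex_univ : Convex ℝ (univ : Set ℂ)).contractibleSpace ⟨0, mem_univ 0⟩
  exact (inferInstance : SimplyConnectedSpace (univ : Set ℂ))

theorem tendsto_inv' {L : Set ℂ} (hL : IsCompact L) {Φ : ℂ → ℂ} (hc : ContinuousOn Φ L)
    (hi : InjOn Φ L) {ι : Type*} {l : Filter ι} {u : ι → ℂ} (hu : ∀ᶠ i in l, u i ∈ L) {z : ℂ}
    (hz : z ∈ L) (hlim : Tendsto (fun i => Φ (u i)) l (𝓝 (Φ z))) : Tendsto u l (𝓝 z) := by
  rw [tendsto_iff_ultrafilter]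
  intro F hF
  have hu' : ∀ᶠ i in (F : Filter ι), u i ∈ L := hF hu
  obtain ⟨x, hx, hlx⟩ := hL.ultrafilter_le_nhds (F.map u) (le_principal_iff.2 hu')
  have hlx' : Tendsto u F (𝓝 x) := hlx
  have h1 : Tendsto (fun i => Φ (u i)) F (𝓝 (Φ x)) := by
    refine (hc x hx).tendsto.comp ?_
    exact tendsto_nhdsWithin_iff.2 ⟨hlx', hu'⟩
  have h2 := tendsto_nhds_unique h1 (hlim.mono_left hF)
  rw [← hi hx hz h2]
  exact hlx'

/-- The inverse of an injective continuous map on a compact set is continuous. -/
theorem continuousOn_inv {L : Set ℂ} (hL : IsCompact L) {Φ : ℂ → ℂ} (hc : ContinuousOn Φ L)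
    (hi : InjOn Φ L) {u : ℂ → ℂ} (hu : ∀ p ∈ Φ '' L, u p ∈ L ∧ Φ (u p) = p) :
    ContinuousOn u (Φ '' L) := by
  intro p hp
  refine tendsto_inv' hL hc hi ?_ (hu p hp).1 ?_
  · filter_upwards [self_mem_nhdsWithin] with q hq
    exact (hu q hq).1
  · rw [(hu p hp).2]
    have h3 : Tendsto (fun p : ℂ => p) (𝓝[Φ '' L] p) (𝓝 p) := nhdsWithin_le_nhds
    refine h3.congr' ?_
    filter_upwards [self_mem_nhdsWithin] with q hq
    exact (hu q hq).2.symm

/-- The homeomorphic image of a compact retract of the plane does not separate the plane. -/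
theorem nosep {L : Set ℂ} (hL : IsCompact L) {r : ℂ → ℂ} (hr : Continuous r)
    (hrL : ∀ z, r z ∈ L) (hid : ∀ z ∈ L, r z = z) {Φ : ℂ → ℂ} (hc : ContinuousOn Φ L)
    (hi : InjOn Φ L) : IsPreconnected (Φ '' L)ᶜ := by
  have hK : IsCompact (Φ '' L) := hL.image_of_continuousOn hc
  set u : ℂ → ℂ := Function.invFunOn Φ L with hu
  have hu1 : ∀ p ∈ Φ '' L, u p ∈ L ∧ Φ (u p) = p := fun p hp =>
    ⟨Function.invFunOn_mem hp, Function.invFunOn_eq hp⟩
  have huc := continuousOn_inv hL hc hi hu1
  rcases ((Φ '' L)ᶜ).eq_empty_or_nonempty with h0 | ⟨p, hp⟩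
  · rw [h0]; exact isPreconnected_empty
  suffices h : (Φ '' L)ᶜ = connectedComponentIn (Φ '' L)ᶜ p by
    rw [h]; exact isPreconnected_connectedComponentIn
  refine Subset.antisymm (fun q hq => mem_component_of_log hK hp hq ?_)
    (connectedComponentIn_subset _ _)
  have hΦr : Continuous fun z => Φ (r z) := hc.comp_continuous hr hrL
  have hne : ∀ w, w ∉ Φ '' L → ∀ z, Φ (r z) - w ≠ 0 := by
    intro w hw z h0
    exact hw ⟨r z, hrL z, sub_eq_zero.1 h0⟩
  have hgc : Continuous fun z => (Φ (r z) - p) / (Φ (r z) - q) :=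
    (hΦr.sub continuous_const).div (hΦr.sub continuous_const) (hne q hq)
  obtain ⟨H, hH, hHe⟩ := Complex.exists_continuousOn_eqOn_exp_comp isSC_univ isOpen_univ
    hgc.continuousOn (by
      rintro ⟨z, -, hz⟩
      exact div_ne_zero (hne p hp z) (hne q hq z) hz)
  refine ⟨fun z => H (u z), (hH.mono (subset_univ _)).comp huc (fun _ _ => mem_univ _),
    fun z hz => ?_⟩
  have h1 := hHe (mem_univ (u z))
  simp only [Function.comp] at h1
  rw [hid _ (hu1 z hz).1, (hu1 z hz).2] at h1
  exact h1

/-- The radial retraction onto the closed unit disc. -/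
noncomputable def retr (z : ℂ) : ℂ := (max 1 ‖z‖ : ℝ)⁻¹ • z

theorem continuous_retr : Continuous retr := by
  have h1 : Continuous fun z : ℂ => (max 1 ‖z‖ : ℝ)⁻¹ :=
    (continuous_const.max continuous_norm).inv₀ fun z =>
      (lt_of_lt_of_le one_pos (le_max_left _ _)).ne'
  exact h1.smul continuous_id

theorem retr_mem (z : ℂ) : retr z ∈ closedBall (0 : ℂ) 1 := by
  have h0 : (0 : ℝ) < max 1 ‖z‖ := lt_of_lt_of_le one_pos (le_max_left _ _)
  rw [mem_closedBall_zero_iff, retr, norm_smul, norm_inv, Real.norm_eq_abs, abs_of_pos h0,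
    inv_mul_le_iff₀ h0, mul_one]
  exact le_max_right _ _

theorem retr_id {z : ℂ} (hz : z ∈ closedBall (0 : ℂ) 1) : retr z = z := by
  rw [mem_closedBall_zero_iff] at hz
  rw [retr, max_eq_left hz, inv_one, one_smul]

/-- A closed disc does not separate the plane. -/
theorem nosep_disc {Φ : ℂ → ℂ} (hc : ContinuousOn Φ (closedBall 0 1))
    (hi : InjOn Φ (closedBall 0 1)) : IsPreconnected (Φ '' closedBall 0 1)ᶜ :=
  nosep (isCompact_closedBall 0 1) continuous_retr retr_mem (fun _ => retr_id) hc hi

variable {γ : ℝ → ℂ} {N : ℝ} {D : Set ℂ}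

theorem JCurve_injOn (h : JCurve γ N) {s t : ℝ} (hst : t < s + N) : InjOn γ (Icc s t) := by
  intro x hx y hy he
  obtain ⟨k, hk⟩ := h.inj x y he
  have hN := h.pos
  have h1 : (k : ℝ) * N < 1 * N := by linarith [hx.2, hy.1]
  have h2 : (-1 : ℝ) * N < k * N := by linarith [hx.1, hy.2]
  have h3 : (k : ℝ) < 1 := lt_of_mul_lt_mul_right h1 hN.le
  have h4 : (-1 : ℝ) < k := lt_of_mul_lt_mul_right h2 hN.le
  have h5 : k < 1 := by exact_mod_cast h3
  have h6 : -1 < k := by exact_mod_cast h4
  have h7 : k = 0 := by omega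
  rw [hk, h7]
  simp

/-- An arc does not separate the plane. -/
theorem nosep_arc (h : JCurve γ N) {s t : ℝ} (h0 : s ≤ t) (hst : t < s + N) :
    IsPreconnected (γ '' Icc s t)ᶜ := by
  have e : γ '' Icc s t = (fun z : ℂ => γ z.re) '' ((fun x : ℝ => (x : ℂ)) '' Icc s t) := by
    rw [image_image]
    rfl
  rw [e]
  refine nosep (r := fun z => ((max s (min t z.re) : ℝ) : ℂ)) ?_ (by fun_prop) ?_ ?_ ?_ ?_
  · exact isCompact_Icc.image (by fun_prop)
  · intro z
    exact ⟨_, ⟨le_max_left _ _, max_le h0 (min_le_left _ _)⟩, rfl⟩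
  · rintro _ ⟨x, hx, rfl⟩
    simp only [Complex.ofReal_re]
    rw [min_eq_right hx.2, max_eq_right hx.1]
  · exact (h.cont.comp Complex.continuous_re).continuousOn
  · rintro _ ⟨x, hx, rfl⟩ _ ⟨y, hy, rfl⟩ he
    simp only [Complex.ofReal_re] at he
    rw [JCurve_injOn h hst hx hy he]

theorem isCompact_range (h : JCurve γ N) : IsCompact (range γ) := by
  have : range γ = γ '' Icc 0 N := by
    apply Subset.antisymm
    · rintro _ ⟨x, rfl⟩
      obtain ⟨k, hk, -⟩ := existsUnique_add_zsmul_mem_Ico h.pos x 0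
      rw [zsmul_eq_mul] at hk
      exact ⟨x + k * N, ⟨hk.1, by linarith [hk.2]⟩, per_int h.per k x⟩
    · exact image_subset_range _ _
  rw [this]
  exact isCompact_Icc.image h.cont

/-- The frontier of a bounded domain bounded by a Jordan curve is the whole curve. -/
theorem frontier_eq_range (h : JCurve γ N) (hD : IsOpen D) (hne : D.Nonempty) (hb : IsBounded D)
    (hdis : Disjoint D (range γ)) (hf : frontier D ⊆ range γ) : frontier D = range γ := by
  refine Subset.antisymm hf ?_
  by_contra hcon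
  obtain ⟨_, ⟨t, rfl⟩, ht⟩ := not_subset.1 hcon
  have hN := h.pos
  obtain ⟨δ, hδ, hδt⟩ := Metric.isOpen_iff.1
    ((isClosed_frontier (s := D)).isOpen_compl.preimage h.cont) t ht
  set η : ℝ := min δ N / 4 with hη
  have hη0 : 0 < η := by positivity
  have hηδ : η < δ := by
    have := min_le_left δ N
    have := lt_min hδ hN
    linarith
  have hηN : 2 * η < N := by
    have := min_le_right δ N
    have := lt_min hδ hN
    linarith
  have hA := nosep_arc h (s := t + η) (t := t + N - η) (by linarith) (by linarith)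
  have hfA : frontier D ⊆ γ '' Icc (t + η) (t + N - η) := by
    intro p hp
    obtain ⟨x, rfl⟩ := hf hp
    obtain ⟨k, hk, -⟩ := existsUnique_add_zsmul_mem_Ico hN x t
    rw [zsmul_eq_mul] at hk
    refine ⟨x + k * N, ⟨?_, ?_⟩, per_int h.per k x⟩
    · by_contra hlt
      push Not at hlt
      have h1 : x + k * N ∈ ball t δ := by
        rw [mem_ball, Real.dist_eq, abs_lt]
        constructor <;> linarith [hk.1]
      have h2 := hδt h1
      rw [mem_preimage, per_int h.per k x] at h2
      exact h2 hp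
    · by_contra hlt
      push Not at hlt
      have h1 : x + ((k - 1 : ℤ) : ℝ) * N ∈ ball t δ := by
        rw [mem_ball, Real.dist_eq, abs_lt]
        push_cast
        constructor <;> linarith [hk.2]
      have h2 := hδt h1
      rw [mem_preimage, per_int h.per (k - 1) x] at h2
      exact h2 hp
  have hsub : (γ '' Icc (t + η) (t + N - η))ᶜ ⊆ D := by
    refine subset_of_frontier hD hA ?_ ?_
    · obtain ⟨x, hx⟩ := hne
      exact ⟨x, fun hx' => hdis.le_bot ⟨hx, image_subset_range _ _ hx'⟩, hx⟩
    · rw [Set.disjoint_left]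
      exact fun x hx hx' => hx (hfA hx')
  have hun : IsBounded (univ : Set ℂ) := by
    rw [← union_compl_self (γ '' Icc (t + η) (t + N - η))]
    exact ((isCompact_Icc.image h.cont).isBounded).union (hb.subset hsub)
  exact NormedSpace.unbounded_univ ℝ ℂ hun

/-- No bounded component of the complement. -/
theorem noBdd {J : Set ℂ} (hJ : IsCompact J) (hJc : IsPreconnected J) (hJn : J.Nonempty)
    (hD : IsOpen D) (hb : IsBounded D) (hdis : Disjoint D J) (hf : frontier D ⊆ J) :
    ∀ z ∉ D, ∃ C : Set ℂ, IsPreconnected C ∧ z ∈ C ∧ C ⊆ Dᶜ ∧ ¬ IsBounded C := by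
  have hcl : ∀ x ∉ D, x ∉ J → IsPreconnected (J ∪ closure (connectedComponentIn Jᶜ x)) ∧
      J ∪ closure (connectedComponentIn Jᶜ x) ⊆ Dᶜ := by
    intro x hxD hxJ
    have hWo : IsOpen (connectedComponentIn Jᶜ x) := hJ.isClosed.isOpen_compl.connectedComponentIn
    have hxW : x ∈ connectedComponentIn Jᶜ x := mem_connectedComponentIn hxJ
    have hWD : Disjoint (connectedComponentIn Jᶜ x) D := by
      rw [Set.disjoint_left]
      intro y hy hyD
      refine hxD (subset_of_frontier hD isPreconnected_connectedComponentIn ⟨y, hy, hyD⟩ ?_ hxW)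
      rw [Set.disjoint_left]
      exact fun w hw hw' => connectedComponentIn_subset _ _ hw (hf hw')
    refine ⟨?_, ?_⟩
    · have hne : (closure (connectedComponentIn Jᶜ x) ∩ J).Nonempty := by
        by_contra hno
        rw [Set.not_nonempty_iff_eq_empty] at hno
        have h1 : closure (connectedComponentIn Jᶜ x) ⊆ connectedComponentIn Jᶜ x := by
          intro y hy
          exact closure_component hJ.isClosed hy fun hyJ => by
            have : y ∈ closure (connectedComponentIn Jᶜ x) ∩ J := ⟨hy, hyJ⟩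
            rw [hno] at this
            exact this
        have h2 : IsClopen (connectedComponentIn Jᶜ x) :=
          ⟨isClosed_of_closure_subset h1, hWo⟩
        rcases isClopen_iff.1 h2 with h3 | h3
        · rw [h3] at hxW; exact hxW
        · obtain ⟨y, hy⟩ := hJn
          have : y ∈ connectedComponentIn Jᶜ x := by rw [h3]; trivial
          exact connectedComponentIn_subset _ _ this hy
      obtain ⟨y, hy1, hy2⟩ := hne
      exact hJc.union y hy2 hy1 isPreconnected_connectedComponentIn.closure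
    · rintro y (hy | hy) hyD
      · exact hdis.le_bot ⟨hyD, hy⟩
      · exact (hWD.closure_left hD).le_bot ⟨hy, hyD⟩
  obtain ⟨R, hR⟩ := (hJ.isBounded.union hb).subset_closedBall 0
  obtain ⟨y, hy⟩ : ((closedBall (0 : ℂ) R)ᶜ).Nonempty := by
    refine ⟨((|R| + 1 : ℝ) : ℂ), ?_⟩
    rw [mem_compl_iff, mem_closedBall, dist_zero_right, Complex.norm_real, Real.norm_eq_abs,
      abs_of_pos (by positivity), not_le]
    linarith [le_abs_self R]
  have hyJ : y ∉ J := fun h => hy (hR (Or.inl h))
  have hyD : y ∉ D := fun h => hy (hR (Or.inr h))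
  obtain ⟨h1, h2⟩ := hcl y hyD hyJ
  have hunb : ¬ IsBounded (J ∪ closure (connectedComponentIn Jᶜ y)) := by
    intro hbd
    have h3 : (closedBall (0 : ℂ) R)ᶜ ⊆ J ∪ closure (connectedComponentIn Jᶜ y) :=
      ((preconnected_compl_closedBall 0 R).subset_connectedComponentIn hy
        (compl_subset_compl.2 (subset_union_left.trans hR))).trans
        (subset_closure.trans subset_union_right)
    have h4 : IsBounded (univ : Set ℂ) := by
      rw [← union_compl_self (closedBall (0 : ℂ) R)]
      exact isBounded_closedBall.union (hbd.subset h3)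
    exact NormedSpace.unbounded_univ ℝ ℂ h4
  obtain ⟨j, hj⟩ := hJn
  intro z hz
  by_cases hzJ : z ∈ J
  · exact ⟨_, h1, Or.inl hzJ, h2, hunb⟩
  · obtain ⟨h3, h4⟩ := hcl z hz hzJ
    refine ⟨_, h3.union j (Or.inl hj) (Or.inl hj) h1,
      Or.inl (Or.inr (subset_closure (mem_connectedComponentIn hzJ))), union_subset h4 h2,
      fun hbd => hunb (hbd.subset subset_union_right)⟩

/-- A bounded domain bounded by a Jordan curve is a Jordan domain. -/
theorem good_of_curve (h : JCurve γ N) (hD : IsOpen D) (hc : IsConnected D) (hb : IsBounded D)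
    (hdis : Disjoint D (range γ)) (hf : frontier D ⊆ range γ) :
    Good D ∧ frontier D = range γ := by
  have hfe := frontier_eq_range h hD hc.nonempty hb hdis hf
  refine ⟨⟨hD, ⟨hc, P153.TOP.hasLogOn_of_noBdd hD hc.isPreconnected
    (noBdd (isCompact_range h) (isPreconnected_range h.cont) (range_nonempty γ) hD hb hdis hf)⟩,
    hb, h.lc hfe, h.noCut hfe⟩, hfe⟩

end Vale.Agent.P148.R2.H771
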