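import Vale.Agent.P148.R2.H771.Sch1

/-!
# The theorem of Schoenflies, part 2: the homeomorphism of the plane

The conformal maps of the disc onto a Jordan domain and onto the inversion of its exterior extend
to the boundary (Carathéodory); after a radial change of the second one they fit together to a
homeomorphism of the plane.
-/

open Set Topology Metric Filter Bornology

namespace Vale.Agent.P148.R2.H771

open Vale.Agent.P153.R2.R1

variable {γ : ℝ → ℂ} {N : ℝ} {D : Set ℂ} {z₀ : ℂ}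

/-! ### The exterior -/

/-- The inversion of the exterior, with `0` for `∞`. -/
def ext (D : Set ℂ) (z₀ : ℂ) : Set ℂ := {w | w = 0 ∨ z₀ + w⁻¹ ∉ closure D}

theorem jcurve_inv (h : JCurve γ N) (hz : z₀ ∉ range γ) : JCurve (fun t => (γ t - z₀)⁻¹) N where
  pos := h.pos
  cont := (h.cont.sub continuous_const).inv₀ fun t h0 => hz ⟨t, sub_eq_zero.1 h0⟩
  per x := by rw [h.per]
  inj x y he := h.inj x y (sub_left_injective (inv_injective he))

theorem exists_ball_ext (hb : IsBounded D) (z₀ : ℂ) : ∃ r > 0, ball (0 : ℂ) r ⊆ ext D z₀ := by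
  obtain ⟨R, hR⟩ := hb.closure.subset_closedBall z₀
  refine ⟨(|R| + 1)⁻¹, by positivity, fun w hw => ?_⟩
  rw [mem_ball_zero_iff] at hw
  by_cases h0 : w = 0
  · exact Or.inl h0
  refine Or.inr fun hc => ?_
  have h1 := hR hc
  rw [mem_closedBall, dist_eq_norm, add_sub_cancel_left, norm_inv] at h1
  have h2 : 0 < ‖w‖ := norm_pos_iff.2 h0
  have h3 : |R| + 1 < ‖w‖⁻¹ := by
    rw [lt_inv_comm₀ (by positivity) h2]
    exact hw
  linarith [le_abs_self R]

theorem image_inv (hz₀ : z₀ ∈ closure D) :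
    (fun z => (z - z₀)⁻¹) '' (closure D)ᶜ = {w | w ≠ 0 ∧ z₀ + w⁻¹ ∉ closure D} := by
  apply Subset.antisymm
  · rintro _ ⟨z, hz, rfl⟩
    refine ⟨inv_ne_zero (sub_ne_zero.2 fun e => hz (e ▸ hz₀)), ?_⟩
    rw [inv_inv, add_sub_cancel]
    exact hz
  · rintro w ⟨hw, hw'⟩
    refine ⟨z₀ + w⁻¹, hw', ?_⟩
    simp only [add_sub_cancel_left, inv_inv]

theorem ext_eq (hb : IsBounded D) (hz₀ : z₀ ∈ closure D) :
    ∃ r > 0, ext D z₀ = ball 0 r ∪ (fun z => (z - z₀)⁻¹) '' (closure D)ᶜ := by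
  obtain ⟨r, hr, hsub⟩ := exists_ball_ext hb z₀
  refine ⟨r, hr, Subset.antisymm ?_ ?_⟩
  · intro w hw
    by_cases h0 : w = 0
    · exact Or.inl (by rw [h0]; exact mem_ball_self hr)
    · refine Or.inr ?_
      rw [image_inv hz₀]
      exact ⟨h0, hw.resolve_left h0⟩
  · refine union_subset hsub ?_
    rw [image_inv hz₀]
    exact fun w hw => Or.inr hw.2

theorem isOpen_ext (hb : IsBounded D) (hz₀ : z₀ ∈ closure D) : IsOpen (ext D z₀) := by
  obtain ⟨r, hr, he⟩ := ext_eq hb hz₀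
  rw [he, image_inv hz₀]
  refine isOpen_ball.union ?_
  have h1 : IsOpen {w : ℂ | w ≠ 0} := isOpen_ne
  have h2 : ContinuousOn (fun w : ℂ => z₀ + w⁻¹) {w : ℂ | w ≠ 0} :=
    continuousOn_const.add (continuousOn_id.inv₀ fun w hw => hw)
  exact h2.isOpen_inter_preimage h1 (isClosed_closure (s := D)).isOpen_compl

theorem isConnected_ext (hb : IsBounded D) (hz₀ : z₀ ∈ closure D)
    (hc : IsPreconnected (closure D)ᶜ) : IsConnected (ext D z₀) := by
  obtain ⟨r, hr, he⟩ := ext_eq hb hz₀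
  refine ⟨⟨0, Or.inl rfl⟩, ?_⟩
  rw [he]
  have h1 : IsPreconnected ((fun z => (z - z₀)⁻¹) '' (closure D)ᶜ) := by
    refine hc.image _ ?_
    refine (continuousOn_id.sub continuousOn_const).inv₀ fun z hz h0 => ?_
    have e : z = z₀ := sub_eq_zero.1 h0
    exact hz (e ▸ hz₀)
  -- a common point
  have h2 : ((r / 2 : ℝ) : ℂ) ∈ ball (0 : ℂ) r := by
    rw [mem_ball_zero_iff, Complex.norm_real, Real.norm_eq_abs, abs_of_pos (by positivity)]
    linarith
  have h3 : ((r / 2 : ℝ) : ℂ) ∈ ext D z₀ := by rw [he]; exact Or.inl h2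
  have h4 : ((r / 2 : ℝ) : ℂ) ≠ 0 := by
    rw [Complex.ofReal_ne_zero]; positivity
  have h5 : ((r / 2 : ℝ) : ℂ) ∈ (fun z => (z - z₀)⁻¹) '' (closure D)ᶜ := by
    rw [image_inv hz₀]
    exact ⟨h4, h3.resolve_left h4⟩
  exact (convex_ball 0 r).isPreconnected.union _ h2 h5 h1

theorem isBounded_ext (hD : IsOpen D) (hz₀ : z₀ ∈ D) : IsBounded (ext D z₀) := by
  obtain ⟨s, hs, hsD⟩ := Metric.isOpen_iff.1 hD z₀ hz₀
  refine (isBounded_closedBall (x := (0 : ℂ)) (r := s⁻¹)).subset fun w hw => ?_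
  rw [mem_closedBall_zero_iff]
  rcases hw with rfl | hw
  · simp only [norm_zero]; positivity
  · by_cases h0 : w = 0
    · rw [h0, norm_zero]; positivity
    have h1 : 0 < ‖w‖ := norm_pos_iff.2 h0
    rw [le_inv_comm₀ h1 hs]
    by_contra hlt
    push Not at hlt
    refine hw (subset_closure (hsD ?_))
    rw [mem_ball, dist_eq_norm, add_sub_cancel_left, norm_inv]
    exact hlt

theorem disjoint_ext (hz₀ : z₀ ∉ frontier D) (hf : frontier D = range γ) :
    Disjoint (ext D z₀) (range fun t => (γ t - z₀)⁻¹) := by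
  rw [Set.disjoint_left]
  rintro _ hw ⟨t, rfl⟩
  have h1 : γ t ∈ frontier D := by rw [hf]; exact mem_range_self t
  have h2 : γ t - z₀ ≠ 0 := sub_ne_zero.2 fun e => hz₀ (e ▸ h1)
  rcases hw with h | h
  · exact inv_ne_zero h2 h
  · rw [inv_inv, add_sub_cancel] at h
    exact h (frontier_subset_closure h1)

theorem frontier_ext (hD : IsOpen D) (hb : IsBounded D) (hz₀ : z₀ ∈ D)
    (hf : frontier D = range γ) : frontier (ext D z₀) ⊆ range fun t => (γ t - z₀)⁻¹ := by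
  intro w hw
  rw [(isOpen_ext hb (subset_closure hz₀)).frontier_eq] at hw
  obtain ⟨hwc, hwE⟩ := hw
  have h0 : w ≠ 0 := fun h => hwE (Or.inl h)
  have h1 : z₀ + w⁻¹ ∈ closure D := by
    by_contra h
    exact hwE (Or.inr h)
  have h2 : z₀ + w⁻¹ ∉ D := by
    intro h
    have h3 : ContinuousAt (fun w : ℂ => z₀ + w⁻¹) w :=
      continuousAt_const.add (continuousAt_id.inv₀ h0)
    have h4 : ∀ᶠ v in 𝓝 w, z₀ + v⁻¹ ∈ D := h3.eventually (hD.mem_nhds h)
    have h5 : ∀ᶠ v in 𝓝 w, v ≠ 0 := isOpen_ne.mem_nhds h0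
    obtain ⟨v, ⟨hv1, hv2⟩, hv3⟩ := ((h4.and h5).and_frequently
      (mem_closure_iff_frequently.1 hwc)).exists
    rcases hv3 with h6 | h6
    · exact hv2 h6
    · exact h6 (subset_closure hv1)
  have h3 : z₀ + w⁻¹ ∈ frontier D := by rw [hD.frontier_eq]; exact ⟨h1, h2⟩
  rw [hf] at h3
  obtain ⟨t, ht⟩ := h3
  refine ⟨t, ?_⟩
  simp only [ht, add_sub_cancel_left, inv_inv]

/-! ### Gluing -/

/-- Two closed discs, glued along their boundaries. -/
theorem glue {Φ Ψ : ℂ → ℂ} {E : Set ℂ} (hΦ : CConf Φ D) (hΦi : InjOn Φ (closedBall 0 1))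
    (hΦ0 : Φ 0 = z₀) (hΨ : CConf Ψ E) (hΨi : InjOn Ψ (closedBall 0 1)) (hΨ0 : Ψ 0 = 0)
    (hE : E = ext D z₀) (hfE : frontier E = (fun z => (z - z₀)⁻¹) '' frontier D) :
    ∃ H : ℂ ≃ₜ ℂ, ∀ z ∈ closedBall (0 : ℂ) 1, H z = Φ z := by
  have hz₀ : z₀ ∈ D := by rw [← hΦ0]; exact hΦ.mem (mem_ball_self one_pos)
  have hz₀f : z₀ ∉ frontier D := by
    rw [hΦ.isOpen.frontier_eq]
    exact fun h => h.2 hz₀
  set v : ℂ → ℂ := Function.invFunOn Ψ (closedBall 0 1) with hv
  have hv1 : ∀ p ∈ Ψ '' closedBall 0 1, v p ∈ closedBall (0 : ℂ) 1 ∧ Ψ (v p) = p := fun p hp =>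
    ⟨Function.invFunOn_mem hp, Function.invFunOn_eq hp⟩
  have hvc := continuousOn_inv (isCompact_closedBall 0 1) hΨ.cont hΨi hv1
  -- the change of the parameter of the circle
  set g : ℂ → ℂ := fun ζ => v ((Φ ζ - z₀)⁻¹) with hg
  have hmem : ∀ ζ ∈ sphere (0 : ℂ) 1, (Φ ζ - z₀)⁻¹ ∈ frontier E := by
    intro ζ hζ
    rw [hfE]
    exact ⟨Φ ζ, hΦ.sphere_mem hζ, rfl⟩
  have hmem' : ∀ ζ ∈ sphere (0 : ℂ) 1, (Φ ζ - z₀)⁻¹ ∈ Ψ '' closedBall 0 1 := by
    intro ζ hζ
    have h1 := hmem ζ hζ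
    rw [← hΨ.frontier_eq] at h1
    exact image_mono sphere_subset_closedBall h1
  have hg1 : ∀ ζ ∈ sphere (0 : ℂ) 1, Ψ (g ζ) = (Φ ζ - z₀)⁻¹ := fun ζ hζ => (hv1 _ (hmem' ζ hζ)).2
  have hg2 : ∀ ζ ∈ sphere (0 : ℂ) 1, g ζ ∈ sphere (0 : ℂ) 1 := by
    intro ζ hζ
    have h1 := hmem ζ hζ
    rw [← hΨ.frontier_eq] at h1
    obtain ⟨ξ, hξ, he⟩ := h1
    have h2 : g ζ = ξ := hΨi (hv1 _ (hmem' ζ hζ)).1 (sphere_subset_closedBall hξ)
      (by rw [he]; exact hg1 ζ hζ)
    rw [h2]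
    exact hξ
  have hgc : ContinuousOn g (sphere 0 1) := by
    refine hvc.comp ?_ hmem'
    refine ((hΦ.cont.mono sphere_subset_closedBall).sub continuousOn_const).inv₀ ?_
    intro ζ hζ h0
    have e : Φ ζ = z₀ := sub_eq_zero.1 h0
    exact hz₀f (e ▸ hΦ.sphere_mem hζ)
  -- the outer map
  set u : ℂ → ℂ := fun z => (‖z‖⁻¹ : ℝ) • g ((‖z‖⁻¹ : ℝ) • z) with hu
  have hns : ∀ z : ℂ, 1 ≤ ‖z‖ → (‖z‖⁻¹ : ℝ) • z ∈ sphere (0 : ℂ) 1 := by
    intro z hz
    rw [mem_sphere_zero_iff_norm, norm_smul, norm_inv, norm_norm, inv_mul_cancel₀ (by positivity)]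
  have hun : ∀ z : ℂ, 1 ≤ ‖z‖ → ‖u z‖ = ‖z‖⁻¹ := by
    intro z hz
    have h1 := mem_sphere_zero_iff_norm.1 (hg2 _ (hns z hz))
    rw [hu]
    simp only
    rw [norm_smul, h1, mul_one, norm_inv, norm_norm]
  have hum : ∀ z : ℂ, 1 ≤ ‖z‖ → u z ∈ closedBall (0 : ℂ) 1 := by
    intro z hz
    rw [mem_closedBall_zero_iff, hun z hz]
    exact inv_le_one_of_one_le₀ hz
  have hu0 : ∀ z : ℂ, 1 ≤ ‖z‖ → u z ≠ 0 := by
    intro z hz h0
    have h1 := hun z hz
    rw [h0, norm_zero] at h1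
    have : 0 < ‖z‖⁻¹ := by positivity
    linarith
  have hΨ0' : ∀ w ∈ closedBall (0 : ℂ) 1, w ≠ 0 → Ψ w ≠ 0 := by
    intro w hw h0 he
    exact h0 (hΨi hw (mem_closedBall_self zero_le_one) (by rw [he, hΨ0]))
  set G : ℂ → ℂ := fun z => z₀ + (Ψ (u z))⁻¹ with hG
  have huc : ContinuousOn u {z : ℂ | 1 ≤ ‖z‖} := by
    have h1 : ContinuousOn (fun z : ℂ => (‖z‖⁻¹ : ℝ)) {z : ℂ | 1 ≤ ‖z‖} :=
      continuous_norm.continuousOn.inv₀ fun z hz => (lt_of_lt_of_le one_pos hz).ne'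
    exact h1.smul (hgc.comp (h1.smul continuousOn_id) fun z hz => hns z hz)
  have hGc : ContinuousOn G {z : ℂ | 1 ≤ ‖z‖} := by
    refine continuousOn_const.add ((hΨ.cont.comp huc fun z hz => hum z hz).inv₀ ?_)
    exact fun z hz => hΨ0' _ (hum z hz) (hu0 z hz)
  set H : ℂ → ℂ := fun z => if ‖z‖ ≤ 1 then Φ z else G z with hH
  have hHc : Continuous H := by
    refine continuous_if_le continuous_norm continuous_const ?_ hGc ?_
    · have : {z : ℂ | ‖z‖ ≤ 1} = closedBall 0 1 := by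
        ext z; rw [mem_closedBall_zero_iff]; rfl
      rw [this]
      exact hΦ.cont
    · intro z hz
      have h1 : z ∈ sphere (0 : ℂ) 1 := mem_sphere_zero_iff_norm.2 hz
      simp only [hG, hu]
      rw [hz, inv_one, one_smul, one_smul, hg1 z h1, inv_inv, add_sub_cancel]
  have hin : ∀ z : ℂ, ‖z‖ ≤ 1 → H z = Φ z := fun z hz => if_pos hz
  have hout : ∀ z : ℂ, 1 < ‖z‖ → H z = G z := fun z hz => if_neg (not_le.2 hz)
  have hGout : ∀ z : ℂ, 1 < ‖z‖ → G z ∉ closure D := by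
    intro z hz
    have h1 : u z ∈ ball (0 : ℂ) 1 := by
      rw [mem_ball_zero_iff, hun z hz.le]
      exact inv_lt_one_of_one_lt₀ hz
    have h2 := hΨ.mem h1
    rw [hE] at h2
    exact h2.resolve_left (hΨ0' _ (hum z hz.le) (hu0 z hz.le))
  have hbij : Function.Bijective H := by
    constructor
    · intro z w he
      rcases le_or_gt ‖z‖ 1 with hz | hz <;> rcases le_or_gt ‖w‖ 1 with hw | hw
      · rw [hin z hz, hin w hw] at he
        exact hΦi (mem_closedBall_zero_iff.2 hz) (mem_closedBall_zero_iff.2 hw) he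
      · exfalso
        rw [hin z hz, hout w hw] at he
        refine hGout w hw ?_
        rw [← he, ← hΦ.closure_eq]
        exact ⟨z, mem_closedBall_zero_iff.2 hz, rfl⟩
      · exfalso
        rw [hout z hz, hin w hw] at he
        refine hGout z hz ?_
        rw [he, ← hΦ.closure_eq]
        exact ⟨w, mem_closedBall_zero_iff.2 hw, rfl⟩
      · rw [hout z hz, hout w hw] at he
        have h1 : Ψ (u z) = Ψ (u w) := inv_injective (add_left_cancel he)
        have h2 : u z = u w := hΨi (hum z hz.le) (hum w hw.le) h1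
        have h3 : ‖z‖ = ‖w‖ := by
          have := congrArg norm h2
          rw [hun z hz.le, hun w hw.le] at this
          exact inv_injective this
        have h4 : (‖z‖⁻¹ : ℝ) ≠ 0 := by
          have : 0 < ‖z‖ := by linarith
          positivity
        have h5 : g ((‖z‖⁻¹ : ℝ) • z) = g ((‖w‖⁻¹ : ℝ) • w) := by
          have h6 : (‖z‖⁻¹ : ℝ) • g ((‖z‖⁻¹ : ℝ) • z) = (‖z‖⁻¹ : ℝ) • g ((‖w‖⁻¹ : ℝ) • w) := by
            have : u w = (‖z‖⁻¹ : ℝ) • g ((‖w‖⁻¹ : ℝ) • w) := by rw [h3]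
            rw [← this]
            exact h2
          exact smul_right_injective _ h4 h6
        have h6 := hg1 _ (hns z hz.le)
        have h7 := hg1 _ (hns w hw.le)
        rw [h5, h7] at h6
        have h8 : Φ ((‖w‖⁻¹ : ℝ) • w) = Φ ((‖z‖⁻¹ : ℝ) • z) :=
          sub_left_injective (inv_injective h6)
        have h9 := hΦi (sphere_subset_closedBall (hns w hw.le))
          (sphere_subset_closedBall (hns z hz.le)) h8
        rw [← h3] at h9
        exact (smul_right_injective _ h4 h9).symm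
    · intro p
      by_cases hp : p ∈ closure D
      · rw [← hΦ.closure_eq] at hp
        obtain ⟨z, hz, rfl⟩ := hp
        exact ⟨z, hin z (mem_closedBall_zero_iff.1 hz)⟩
      · have hpz : p - z₀ ≠ 0 := sub_ne_zero.2 fun e => hp (e ▸ subset_closure hz₀)
        have h1 : (p - z₀)⁻¹ ∈ E := by
          rw [hE]
          refine Or.inr ?_
          rw [inv_inv, add_sub_cancel]
          exact hp
        rw [← hΨ.img] at h1
        obtain ⟨w, hw, hwe⟩ := h1
        have hw0 : w ≠ 0 := by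
          rintro rfl
          rw [hΨ0] at hwe
          exact inv_ne_zero hpz hwe.symm
        have hwn : 0 < ‖w‖ := norm_pos_iff.2 hw0
        have hw1 : ‖w‖ < 1 := mem_ball_zero_iff.1 hw
        set ξ : ℂ := (‖w‖⁻¹ : ℝ) • w with hξ
        have hξs : ξ ∈ sphere (0 : ℂ) 1 := by
          rw [mem_sphere_zero_iff_norm, hξ, norm_smul, norm_inv, norm_norm,
            inv_mul_cancel₀ hwn.ne']
        have h2 := hΨ.sphere_mem hξs
        rw [hfE] at h2
        obtain ⟨q, hq, hqe⟩ := h2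
        rw [← hΦ.frontier_eq] at hq
        obtain ⟨ζ, hζ, rfl⟩ := hq
        have h3 : g ζ = ξ := hΨi (hv1 _ (hmem' ζ hζ)).1 (sphere_subset_closedBall hξs)
          (by rw [← hqe]; exact hg1 ζ hζ)
        have hζn := mem_sphere_zero_iff_norm.1 hζ
        have h4 : ‖(‖w‖⁻¹ : ℝ) • ζ‖ = ‖w‖⁻¹ := by
          rw [norm_smul, hζn, mul_one, norm_inv, norm_norm]
        have h5 : 1 < ‖(‖w‖⁻¹ : ℝ) • ζ‖ := by
          rw [h4]
          exact (one_lt_inv₀ hwn).2 hw1
        refine ⟨(‖w‖⁻¹ : ℝ) • ζ, ?_⟩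
        rw [hout _ h5]
        have h6 : u ((‖w‖⁻¹ : ℝ) • ζ) = w := by
          simp only [hu]
          rw [h4, inv_inv, smul_smul, mul_inv_cancel₀ hwn.ne', one_smul, h3, hξ, smul_smul,
            mul_inv_cancel₀ hwn.ne', one_smul]
        simp only [hG]
        rw [h6, hwe, inv_inv, add_sub_cancel]
  have hlim : Tendsto H (cocompact ℂ) (cocompact ℂ) := by
    rw [← cobounded_eq_cocompact, ← tendsto_norm_atTop_iff_cobounded]
    have hbig : ∀ᶠ z : ℂ in cobounded ℂ, 1 < ‖z‖ :=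
      tendsto_norm_cobounded_atTop.eventually (eventually_gt_atTop 1)
    have h1 : Tendsto u (cobounded ℂ) (𝓝 0) := by
      rw [tendsto_zero_iff_norm_tendsto_zero]
      have h2 : Tendsto (fun z : ℂ => ‖z‖⁻¹) (cobounded ℂ) (𝓝 0) :=
        tendsto_inv_atTop_zero.comp tendsto_norm_cobounded_atTop
      refine h2.congr' ?_
      filter_upwards [hbig] with z hz
      exact (hun z hz.le).symm
    have h2 : Tendsto u (cobounded ℂ) (𝓝[closedBall 0 1] 0) := by
      refine tendsto_nhdsWithin_iff.2 ⟨h1, ?_⟩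
      filter_upwards [hbig] with z hz
      exact hum z hz.le
    have h3 : Tendsto (fun z => Ψ (u z)) (cobounded ℂ) (𝓝 0) := by
      have := (hΨ.cont 0 (mem_closedBall_self zero_le_one)).tendsto
      rw [hΨ0] at this
      exact this.comp h2
    have h4 : Tendsto (fun z => ‖Ψ (u z)‖) (cobounded ℂ) (𝓝[>] 0) := by
      refine tendsto_nhdsWithin_iff.2 ⟨tendsto_zero_iff_norm_tendsto_zero.1 h3, ?_⟩
      filter_upwards [hbig] with z hz
      exact norm_pos_iff.2 (hΨ0' _ (hum z hz.le) (hu0 z hz.le))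
    have h5 : Tendsto (fun z => ‖Ψ (u z)‖⁻¹ - ‖z₀‖) (cobounded ℂ) atTop :=
      tendsto_atTop_add_const_right _ (-‖z₀‖) (tendsto_inv_nhdsGT_zero.comp h4)
    refine tendsto_atTop_mono' _ ?_ h5
    filter_upwards [hbig] with z hz
    rw [hout z hz]
    simp only [hG]
    have h6 := norm_sub_le (z₀ + (Ψ (u z))⁻¹) z₀
    rw [add_sub_cancel_left, norm_inv] at h6
    linarith
  have hprop : IsProperMap H := isProperMap_iff_tendsto_cocompact.2 ⟨hHc, hlim⟩
  exact ⟨(Equiv.ofBijective H hbij).toHomeomorphOfContinuousClosed hHc hprop.isClosedMap,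
    fun z hz => hin z (mem_closedBall_zero_iff.1 hz)⟩

/-- **The theorem of Schoenflies**: a bounded domain whose frontier is a Jordan curve is the image
of the unit disc under a homeomorphism of the plane. -/
theorem schoenflies (h : JCurve γ N) (hD : IsOpen D) (hc : IsConnected D) (hb : IsBounded D)
    (hf : frontier D = range γ) : ∃ H : ℂ ≃ₜ ℂ, H '' ball 0 1 = D ∧ H '' sphere 0 1 = range γ := by
  have hdis : Disjoint D (range γ) := by
    rw [← hf, hD.frontier_eq, Set.disjoint_left]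
    exact fun x hx hx' => hx'.2 hx
  obtain ⟨hg, -⟩ := good_of_curve h hD hc hb hdis hf.le
  obtain ⟨z₀, hz₀⟩ := hc.nonempty
  obtain ⟨Φ, hΦ, hΦ0, -⟩ := hg.exists_cconf hz₀
  have hΦi := hΦ.injOn hg.nocut
  have hzf : z₀ ∉ frontier D := by
    rw [hD.frontier_eq]
    exact fun h => h.2 hz₀
  have hcl : IsPreconnected (closure D)ᶜ := by
    rw [← hΦ.closure_eq]
    exact nosep_disc hΦ.cont hΦi
  have hJ := jcurve_inv h (z₀ := z₀) (by rw [← hf]; exact hzf)
  obtain ⟨hg', hf'⟩ := good_of_curve hJ (isOpen_ext hb (subset_closure hz₀))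
    (isConnected_ext hb (subset_closure hz₀) hcl) (isBounded_ext hD hz₀)
    (disjoint_ext hzf hf) (frontier_ext hD hb hz₀ hf)
  obtain ⟨Ψ, hΨ, hΨ0, -⟩ := hg'.exists_cconf (z₀ := 0) (Or.inl rfl)
  obtain ⟨H, hH⟩ := glue hΦ hΦi hΦ0 hΨ (hΨ.injOn hg'.nocut) hΨ0 rfl (by
    rw [hf', hf, ← range_comp]
    rfl)
  refine ⟨H, ?_, ?_⟩
  · rw [← hΦ.img]
    exact image_congr fun z hz => hH z (ball_subset_closedBall hz)
  · rw [← hf, ← hΦ.frontier_eq]
    exact image_congr fun z hz => hH z (sphere_subset_closedBall hz)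

end Vale.Agent.P148.R2.H771
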